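import Vale.Agent.P370Z.Red

/-!
# P370: combinatorics of the chain of rooms and corridors
-/

namespace Vale.Agent.P370Z

open Finset

namespace ChD

variable (c : ChD)

/-! ### Positions -/

theorem pl_zero : c.pl 0 = 2 := by simp [pl]

theorem pr_eq (j : ℕ) : c.pr j = c.pl j + c.R j := rfl

theorem l_eq (k : ℕ) : c.l k = c.pr k + (c.s k - c.ρ k) := rfl

theorem r_eq (k : ℕ) : c.r k = c.l k + c.a * 4 ^ c.ρ k := rfl

theorem len_eq : c.len = c.pr c.K + 2 := rfl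

theorem pl_succ (k : ℕ) : c.pl (k + 1) = c.r k + (c.s (k + 1) - c.ρ k) := by
  simp only [r, l, pr, pl, sum_range_succ]; ring

theorem pl_le_pr (j : ℕ) : c.pl j ≤ c.pr j := by simp [pr]

theorem pr_le_l (k : ℕ) : c.pr k ≤ c.l k := by simp [l]

theorem l_le_r (k : ℕ) : c.l k ≤ c.r k := by simp [r]

theorem r_le_pl (k : ℕ) : c.r k ≤ c.pl (k + 1) := by rw [pl_succ]; omega

theorem pl_mono : Monotone c.pl := monotone_nat_of_le_succ fun k =>
  (c.pl_le_pr k).trans ((c.pr_le_l k).trans ((c.l_le_r k).trans (c.r_le_pl k)))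

theorem two_le_pl (j : ℕ) : 2 ≤ c.pl j := c.pl_zero ▸ c.pl_mono (Nat.zero_le j)

theorem r_le_pl_of_lt {k j : ℕ} (h : k < j) : c.r k ≤ c.pl j :=
  (c.r_le_pl k).trans (c.pl_mono h)

theorem pr_mono : Monotone c.pr := monotone_nat_of_le_succ fun k =>
  (c.pr_le_l k).trans ((c.l_le_r k).trans ((c.r_le_pl k).trans (c.pl_le_pr _)))

theorem l_mono : Monotone c.l := monotone_nat_of_le_succ fun k =>
  (c.l_le_r k).trans ((c.r_le_pl k).trans ((c.pl_le_pr _).trans (c.pr_le_l _)))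

theorem r_mono : Monotone c.r := monotone_nat_of_le_succ fun k =>
  (c.r_le_pl k).trans ((c.pl_le_pr _).trans ((c.pr_le_l _).trans (c.l_le_r _)))

theorem pr_le_len {j : ℕ} (hj : j ≤ c.K) : c.pr j + 2 ≤ c.len := by
  have := c.pr_mono hj
  rw [len_eq]; omega

theorem pl_le_len {j : ℕ} (hj : j ≤ c.K) : c.pl j + 2 ≤ c.len := by
  have := c.pr_le_len hj
  have := c.pl_le_pr j
  omega

theorem r_le_len {k : ℕ} (hk : k < c.K) : c.r k + 2 ≤ c.len := by
  have := c.pl_le_len (j := k + 1) hk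
  have := c.r_le_pl k
  omega

theorem l_le_len {k : ℕ} (hk : k < c.K) : c.l k + 2 ≤ c.len := by
  have := c.r_le_len hk
  have := c.l_le_r k
  omega

/-! ### Counting functions -/

/-- The number of terms of a monotone sequence below a given integer. -/
theorem count_eq (p : ℕ → ℤ) (hp : Monotone p) (N k : ℕ) (i : ℤ) (hk : k ≤ N)
    (h1 : k = 0 ∨ p (k - 1) ≤ i) (h2 : k = N ∨ i < p k) :
    (∑ j ∈ range N, if p j ≤ i then 1 else 0) = k := by
  have h : ∀ j ∈ range N, (if p j ≤ i then 1 else 0) = if j ∈ range k then 1 else 0 := by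
    intro j hj
    rw [mem_range] at hj
    by_cases hjk : j < k
    · have : p j ≤ i := by
        rcases h1 with h1 | h1
        · omega
        · exact (hp (by omega)).trans h1
      simp [this, hjk]
    · have : ¬ p j ≤ i := by
        rcases h2 with h2 | h2
        · omega
        · have := hp (show k ≤ j by omega)
          omega
      simp [this, hjk]
  rw [sum_congr rfl h, sum_ite_mem, inter_eq_right.mpr (range_subset_range.mpr hk)]
  simp

theorem count_exists (p : ℕ → ℤ) (N : ℕ) (i : ℤ) :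
    ∃ k ≤ N, (k = 0 ∨ p (k - 1) ≤ i) ∧ (k = N ∨ i < p k) := by
  induction N with
  | zero => exact ⟨0, le_rfl, Or.inl rfl, Or.inl rfl⟩
  | succ N ih =>
    obtain ⟨k, hk, h1, h2⟩ := ih
    rcases h2 with h2 | h2
    · subst h2
      by_cases h : i < p k
      · exact ⟨k, by omega, h1, Or.inr h⟩
      · exact ⟨k + 1, le_rfl, Or.inr (by simpa using h), Or.inl rfl⟩
    · exact ⟨k, by omega, h1, Or.inr h2⟩

theorem idx_eq {k : ℕ} {i : ℤ} (hk : k ≤ c.K) (h1 : k = 0 ∨ (c.pl k : ℤ) ≤ i)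
    (h2 : k = c.K ∨ i < c.pl (k + 1)) : c.idx i = k := by
  refine count_eq (fun j => (c.pl (j + 1) : ℤ)) (fun a b hab => ?_) c.K k i hk ?_ h2
  · exact Int.ofNat_le.mpr (c.pl_mono (by omega))
  · rcases h1 with h1 | h1
    · exact Or.inl h1
    · rcases Nat.eq_zero_or_pos k with h0 | h0
      · exact Or.inl h0
      · right
        rwa [Nat.sub_add_cancel h0]

theorem exists_idx (i : ℤ) :
    ∃ k ≤ c.K, (k = 0 ∨ (c.pl k : ℤ) ≤ i) ∧ (k = c.K ∨ i < c.pl (k + 1)) := by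
  obtain ⟨k, hk, h1, h2⟩ := count_exists (fun j => (c.pl (j + 1) : ℤ)) c.K i
  refine ⟨k, hk, ?_, h2⟩
  rcases Nat.eq_zero_or_pos k with h0 | h0
  · exact Or.inl h0
  · rcases h1 with h1 | h1
    · exact Or.inl h1
    · right
      rwa [Nat.sub_add_cancel h0] at h1

theorem idx_spec (i : ℤ) : c.idx i ≤ c.K ∧ (c.idx i = 0 ∨ (c.pl (c.idx i) : ℤ) ≤ i) ∧
    (c.idx i = c.K ∨ i < c.pl (c.idx i + 1)) := by
  obtain ⟨k, hk, h1, h2⟩ := c.exists_idx i
  rw [c.idx_eq hk h1 h2]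
  exact ⟨hk, h1, h2⟩

theorem zn_eq {k : ℕ} {i : ℤ} (hk : k ≤ c.K + 1) (h1 : k = 0 ∨ (c.pl (k - 1) : ℤ) + 1 ≤ i)
    (h2 : k = c.K + 1 ∨ i ≤ c.pl k) : c.zn i = k := by
  refine count_eq (fun j => (c.pl j : ℤ) + 1) (fun a b hab => ?_) (c.K + 1) k i hk h1 ?_
  · have := c.pl_mono hab
    simp only
    omega
  · rcases h2 with h2 | h2
    · exact Or.inl h2
    · right
      omega

theorem zn_spec (i : ℤ) : c.zn i ≤ c.K + 1 ∧ (c.zn i = 0 ∨ (c.pl (c.zn i - 1) : ℤ) + 1 ≤ i) ∧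
    (c.zn i = c.K + 1 ∨ i ≤ c.pl (c.zn i)) := by
  obtain ⟨k, hk, h1, h2⟩ := count_exists (fun j => (c.pl j : ℤ) + 1) (c.K + 1) i
  have h2' : k = c.K + 1 ∨ i ≤ c.pl k := by
    rcases h2 with h2 | h2
    · exact Or.inl h2
    · right
      omega
  rw [c.zn_eq hk h1 h2']
  exact ⟨hk, h1, h2'⟩

theorem zn_eq_succ_iff {k : ℕ} (hk : k < c.K) (i : ℤ) :
    c.zn i = k + 1 ↔ (c.pl k : ℤ) + 1 ≤ i ∧ i ≤ c.pl (k + 1) := by
  constructor
  · intro h
    obtain ⟨-, h1, h2⟩ := c.zn_spec i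
    rw [h] at h1 h2
    constructor
    · rcases h1 with h1 | h1
      · omega
      · simpa using h1
    · rcases h2 with h2 | h2
      · omega
      · exact h2
  · rintro ⟨h1, h2⟩
    exact c.zn_eq (by omega) (Or.inr (by simpa using h1)) (Or.inr h2)

theorem zn_eq_zero_iff (i : ℤ) : c.zn i = 0 ↔ i ≤ 2 := by
  constructor
  · intro h
    obtain ⟨-, -, h2⟩ := c.zn_spec i
    rw [h, pl_zero] at h2
    rcases h2 with h2 | h2
    · omega
    · exact_mod_cast h2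
  · intro h
    exact c.zn_eq (by omega) (Or.inl rfl) (Or.inr (by rw [pl_zero]; exact_mod_cast h))

theorem zn_eq_last_iff (i : ℤ) : c.zn i = c.K + 1 ↔ (c.pl c.K : ℤ) + 1 ≤ i := by
  constructor
  · intro h
    obtain ⟨-, h1, -⟩ := c.zn_spec i
    rw [h] at h1
    rcases h1 with h1 | h1
    · omega
    · simpa using h1
  · intro h
    exact c.zn_eq le_rfl (Or.inr (by simpa using h)) (Or.inl rfl)

/-! ### Consequences of `OK` -/

variable {c} {m0 : ℕ} {θ : ℝ}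

theorem OK.a_ge8 (h : c.OK m0 θ) : 8 ≤ c.a := h.m0_ge.trans h.a_ge

theorem OK.R_ge8 (h : c.OK m0 θ) {j : ℕ} (hj : j ≤ c.K) : 8 ≤ c.R j := h.m0_ge.trans (h.R_ge j hj)

theorem OK.pl_lt_pr (h : c.OK m0 θ) {j : ℕ} (hj : j ≤ c.K) : c.pl j + 8 ≤ c.pr j := by
  have := h.R_ge8 hj
  rw [pr_eq]; omega

theorem OK.pr_lt_l (h : c.OK m0 θ) {k : ℕ} (hk : k < c.K) : c.pr k < c.l k := by
  have := (h.s_gt k hk).1
  rw [l_eq]; omega

theorem OK.l_lt_r (h : c.OK m0 θ) (k : ℕ) : c.l k + 8 ≤ c.r k := by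
  have h1 := h.a_ge8
  have h2 : 1 ≤ 4 ^ c.ρ k := Nat.one_le_pow _ _ (by norm_num)
  rw [r_eq]; nlinarith

theorem OK.r_lt_pl (h : c.OK m0 θ) {k : ℕ} (hk : k < c.K) : c.r k < c.pl (k + 1) := by
  have := (h.s_gt k hk).2
  rw [pl_succ]; omega

theorem OK.pl_strictMono (h : c.OK m0 θ) : StrictMono c.pl := strictMono_nat_of_lt_succ fun k => by
  have := c.pl_le_pr k
  have := c.pr_le_l k
  have := h.l_lt_r k
  have := c.r_le_pl k
  omega

theorem OK.l_cast (h : c.OK m0 θ) {k : ℕ} (hk : k < c.K) :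
    (c.l k : ℤ) = c.pr k + (c.s k - c.ρ k) := by
  have := (h.s_gt k hk).1
  rw [l_eq]; omega

theorem OK.pl_succ_cast (h : c.OK m0 θ) {k : ℕ} (hk : k < c.K) :
    (c.pl (k + 1) : ℤ) = c.r k + (c.s (k + 1) - c.ρ k) := by
  have := (h.s_gt k hk).2
  rw [pl_succ]; omega

theorem OK.K_le_len (h : c.OK m0 θ) : c.K ≤ c.len := by
  have h1 : c.K ≤ c.pl c.K := h.pl_strictMono.le_apply
  have := c.pl_le_len (j := c.K) le_rfl
  omega

theorem OK.θ_pos (h : c.OK m0 θ) : 0 < θ := lt_of_lt_of_le (by positivity) h.small0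

/-! ### The level exponent on the pieces -/

/-- plateaus, including the two ends -/
theorem OK.sig_plat (h : c.OK m0 θ) {j : ℕ} {i : ℤ} (hj : j ≤ c.K) (h1 : j = 0 ∨ (c.pl j : ℤ) ≤ i)
    (h2 : j = c.K ∨ i ≤ c.pr j) : c.sig i = c.s j := by
  have hi : c.idx i = j := by
    refine c.idx_eq hj h1 ?_
    rcases h2 with h2 | h2
    · exact Or.inl h2
    · right
      have := c.pr_le_l j
      have := h.l_lt_r j
      have := c.r_le_pl j
      omega
  unfold sig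
  rw [hi, if_pos h2]

theorem OK.sig_up (h : c.OK m0 θ) {k : ℕ} {i : ℤ} (hk : k < c.K) (h1 : (c.pr k : ℤ) ≤ i)
    (h2 : i ≤ c.l k) : (c.sig i : ℤ) = c.ρ k + (c.l k - i) := by
  have e1 := c.pl_le_pr k
  have e2 := h.l_lt_r k
  have e3 := c.r_le_pl k
  have e4 := h.l_cast hk
  have hi : c.idx i = k := c.idx_eq hk.le (Or.inr (by omega)) (Or.inr (by omega))
  unfold sig
  rw [hi]
  split_ifs with h3
  · omega
  · omega

theorem OK.sig_room (h : c.OK m0 θ) {k : ℕ} {i : ℤ} (hk : k < c.K) (h1 : (c.l k : ℤ) ≤ i)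
    (h2 : i ≤ c.r k) : c.sig i = c.ρ k := by
  have e1 := c.pl_le_pr k
  have e2 := h.pr_lt_l hk
  have e3 := h.r_lt_pl hk
  have hi : c.idx i = k := c.idx_eq hk.le (Or.inr (by omega)) (Or.inr (by omega))
  unfold sig
  rw [hi]
  split_ifs with h3 h4
  · omega
  · omega
  · omega

theorem OK.sig_down (h : c.OK m0 θ) {k : ℕ} {i : ℤ} (hk : k < c.K) (h1 : (c.r k : ℤ) ≤ i)
    (h2 : i ≤ c.pl (k + 1)) : (c.sig i : ℤ) = c.ρ k + (i - c.r k) := by
  have e1 := c.pl_le_pr k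
  have e2 := h.pr_lt_l hk
  have e3 := h.l_lt_r k
  have e4 := h.pl_succ_cast hk
  have e5 := c.pl_le_pr (k + 1)
  rcases eq_or_lt_of_le h2 with h3 | h3
  · rw [h.sig_plat (j := k + 1) hk (Or.inr h3.ge) (Or.inr (by omega))]
    omega
  · have hi : c.idx i = k := c.idx_eq hk.le (Or.inr (by omega)) (Or.inr h3)
    unfold sig
    rw [hi]
    split_ifs with h3 h4
    · omega
    · omega
    · omega

/-- Every cell `[i, i + 1]` lies in one of the pieces. -/
theorem cell_cases (c : ChD) (i : ℤ) :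
    (∃ j ≤ c.K, (j = 0 ∨ (c.pl j : ℤ) ≤ i) ∧ (j = c.K ∨ i + 1 ≤ c.pr j)) ∨
    ∃ k < c.K, ((c.pr k : ℤ) ≤ i ∧ i + 1 ≤ c.l k) ∨ ((c.l k : ℤ) ≤ i ∧ i + 1 ≤ c.r k) ∨
      ((c.r k : ℤ) ≤ i ∧ i + 1 ≤ c.pl (k + 1)) := by
  obtain ⟨k, hk, h1, h2⟩ := c.exists_idx i
  by_cases h3 : k = c.K ∨ i + 1 ≤ c.pr k
  · exact Or.inl ⟨k, hk, h1, h3⟩
  · right
    refine ⟨k, by omega, ?_⟩
    omega

theorem OK.sig_step (h : c.OK m0 θ) (i : ℤ) : |(c.sig (i + 1) : ℤ) - c.sig i| ≤ 1 := by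
  rw [abs_le]
  rcases c.cell_cases i with ⟨j, hj, h1, h2⟩ | ⟨k, hk, h1 | h1 | h1⟩
  · rw [h.sig_plat hj h1 (by omega), h.sig_plat (i := i + 1) hj (by omega) h2]
    omega
  · rw [h.sig_up hk h1.1 (by omega), h.sig_up (i := i + 1) hk (by omega) h1.2]
    omega
  · rw [h.sig_room hk h1.1 (by omega), h.sig_room (i := i + 1) hk (by omega) h1.2]
    omega
  · rw [h.sig_down hk h1.1 (by omega), h.sig_down (i := i + 1) hk (by omega) h1.2]
    omega

/-- In corridor `j` (from the middle of room `j - 1` to the middle of room `j`) the exponent is at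
most `s j`. -/
theorem OK.sig_le_corr (h : c.OK m0 θ) {j : ℕ} {i : ℤ} (hj : j ≤ c.K)
    (h1 : j = 0 ∨ (c.l (j - 1) : ℤ) ≤ i) (h2 : j = c.K ∨ i ≤ c.r j) : c.sig i ≤ c.s j := by
  by_cases h3 : (j = 0 ∨ (c.pl j : ℤ) ≤ i)
  · by_cases h4 : j = c.K ∨ i ≤ c.pr j
    · exact (h.sig_plat hj h3 h4).le
    · have hk : j < c.K := by omega
      have e := h.l_cast hk
      have e' := (h.s_gt j hk).1
      by_cases h5 : i ≤ c.l j
      · have := h.sig_up hk (i := i) (by omega) h5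
        omega
      · have := h.sig_room hk (i := i) (by omega) (by omega)
        omega
  · obtain ⟨k, rfl⟩ : ∃ k, j = k + 1 := ⟨j - 1, by omega⟩
    have hk : k < c.K := hj
    have e := h.pl_succ_cast hk
    have e' := (h.s_gt k hk).2
    simp only [Nat.add_sub_cancel] at h1
    by_cases h5 : i ≤ c.r k
    · have := h.sig_room hk (i := i) (by omega) h5
      omega
    · have := h.sig_down hk (i := i) (by omega) (by omega)
      omega

/-- On the territory of room `k` the exponent is at least `ρ k`. -/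
theorem OK.rho_le_sig (h : c.OK m0 θ) {k : ℕ} {i : ℤ} (hk : k < c.K)
    (h1 : k = 0 ∨ (c.pl k : ℤ) ≤ i) (h2 : k + 1 = c.K ∨ i ≤ c.pr (k + 1)) : c.ρ k ≤ c.sig i := by
  have e := h.s_gt k hk
  by_cases h3 : i ≤ c.pr k
  · rw [h.sig_plat hk.le h1 (Or.inr h3)]
    omega
  by_cases h4 : i ≤ c.l k
  · have := h.sig_up hk (i := i) (by omega) h4
    omega
  by_cases h5 : i ≤ c.r k
  · exact (h.sig_room hk (i := i) (by omega) h5).ge
  by_cases h6 : i ≤ c.pl (k + 1)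
  · have := h.sig_down hk (i := i) (by omega) h6
    omega
  · rw [h.sig_plat (j := k + 1) hk (Or.inr (by omega)) h2]
    omega

theorem OK.sig_le_max (h : c.OK m0 θ) {k : ℕ} {i : ℤ} (hk : k < c.K)
    (h1 : k = 0 ∨ (c.pl k : ℤ) ≤ i) (h2 : k + 1 = c.K ∨ i ≤ c.pr (k + 1)) :
    c.sig i ≤ max (c.s k) (c.s (k + 1)) := by
  have e1 := c.pl_le_pr k
  have e2 := c.pr_le_l k
  have e3 := c.l_le_r k
  by_cases h3 : i ≤ c.r k
  · refine le_max_of_le_left (h.sig_le_corr hk.le ?_ (Or.inr h3))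
    rcases Nat.eq_zero_or_pos k with h0 | h0
    · exact Or.inl h0
    · have := c.r_le_pl_of_lt (show k - 1 < k by omega)
      have := c.l_le_r (k - 1)
      omega
  · refine le_max_of_le_right (h.sig_le_corr (j := k + 1) hk (Or.inr ?_) ?_)
    · simp only [Nat.add_sub_cancel]
      omega
    · have := c.pr_le_l (k + 1)
      have := c.l_le_r (k + 1)
      omega

/-- The exponent decreases from the left end of plateau `k` to the right end of room `k`. -/
theorem OK.sig_anti (h : c.OK m0 θ) {k : ℕ} {i : ℤ} (hk : k < c.K)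
    (h1 : k = 0 ∨ (c.pl k : ℤ) ≤ i) (h2 : i + 1 ≤ c.r k) : c.sig (i + 1) ≤ c.sig i := by
  by_cases h3 : i + 1 ≤ c.pr k
  · rw [h.sig_plat hk.le h1 (Or.inr (by omega)),
      h.sig_plat (i := i + 1) hk.le (by omega) (Or.inr h3)]
  by_cases h4 : i + 1 ≤ c.l k
  · have := h.sig_up hk (i := i) (by omega) (by omega)
    have := h.sig_up hk (i := i + 1) (by omega) h4
    omega
  · rw [h.sig_room hk (i := i) (by omega) (by omega),
      h.sig_room hk (i := i + 1) (by omega) h2]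

/-- The exponent increases from the left end of room `k` to the right end of plateau `k + 1`. -/
theorem OK.sig_mono (h : c.OK m0 θ) {k : ℕ} {i : ℤ} (hk : k < c.K)
    (h1 : (c.l k : ℤ) ≤ i) (h2 : k + 1 = c.K ∨ i + 1 ≤ c.pr (k + 1)) : c.sig i ≤ c.sig (i + 1) := by
  by_cases h3 : i + 1 ≤ c.r k
  · rw [h.sig_room hk (i := i) h1 (by omega), h.sig_room hk (i := i + 1) (by omega) h3]
  by_cases h4 : i + 1 ≤ c.pl (k + 1)
  · have := h.sig_down hk (i := i) (by omega) (by omega)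
    have := h.sig_down hk (i := i + 1) (by omega) h4
    omega
  · rw [h.sig_plat (j := k + 1) (i := i) hk (by omega) (by omega),
      h.sig_plat (j := k + 1) (i := i + 1) hk (by omega) h2]

end ChD

end Vale.Agent.P370Z
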