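import Vale.Agent.P370Z.CH.GapAbs
import Vale.Agent.P370Z.CH.Comb
import Vale.Agent.P370Z.SM.Bd

/-!
# P370: the spectral gap of the chain
-/

namespace Vale.Agent.P370Z

open MeasureTheory Finset

namespace CHB

/-- the ends of the territories -/
def ends (c : ChD) (k : ℕ) : ℤ := if k = 0 then 0 else if k = c.K then c.len else c.pl k

theorem ends_left (c : ChD) {k : ℕ} (hk : k < c.K) :
    ((ends c k : ℤ) : ℝ) = if k = 0 then (0 : ℝ) else c.pl k := by
  unfold ends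
  rw [if_neg hk.ne]
  split_ifs <;> simp

theorem ends_right (c : ChD) (k : ℕ) :
    ((ends c (k + 1) : ℤ) : ℝ) = if k + 1 = c.K then (c.len : ℝ) else c.pl (k + 1) := by
  unfold ends
  rw [if_neg (Nat.succ_ne_zero k)]
  split_ifs <;> simp

theorem ends_le_l (c : ChD) {k : ℕ} (hk : k < c.K) : ends c k ≤ c.l k := by
  have := (c.pl_le_pr k).trans (c.pr_le_l k)
  unfold ends
  rw [if_neg hk.ne]
  split_ifs <;> omega

theorem r_le_ends (c : ChD) {k : ℕ} (hk : k < c.K) : (c.r k : ℤ) ≤ ends c (k + 1) := by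
  have := c.r_le_pl k
  have := c.r_le_len hk
  unfold ends
  rw [if_neg (Nat.succ_ne_zero k)]
  split_ifs <;> omega

theorem setInt (h : ℝ → ℝ) {b : ℝ} (hb : 0 ≤ b) :
    ∫ x in Set.Icc (0 : ℝ) b, h x = ∫ x in (0 : ℝ)..b, h x := by
  rw [intervalIntegral.integral_of_le hb, integral_Icc_eq_integral_Ioc]

theorem fullInt {h : ℝ → ℝ} {b : ℝ} (hb : 0 ≤ b) (hs : ∀ x, h x ≠ 0 → 1 ≤ x ∧ x ≤ b - 1) :
    ∫ x, h x = ∫ x in (0 : ℝ)..b, h x := by
  rw [← setInt h hb]
  refine (setIntegral_eq_integral_of_forall_compl_eq_zero fun x hx => ?_).symm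
  by_contra hne
  have := hs x hne
  exact hx ⟨by linarith [this.1], by linarith [this.2]⟩

end CHB

open CHB in
/-- the spectral gap, for any orthonormal family close to `φ` restricted to the territories -/
theorem chain_gap (c : ChD) (m0 : ℕ) (θ : ℝ) (h : c.OK m0 θ) (e : ℕ → ℝ → ℝ) (n : ℕ → ℝ) (ε : ℝ)
    (he : ∀ k < c.K, Continuous (e k))
    (hs : ∀ k < c.K, ∀ x, e k x ≠ 0 → 1 ≤ x ∧ x ≤ (c.len : ℝ) - 1)
    (hon : ∀ k < c.K, ∀ l < c.K, ∫ x, e k x * e l x = idm k l)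
    (hε : ∀ k < c.K, ∫ x in Set.Icc (0 : ℝ) c.len,
      ((Set.Icc (if k = 0 then (0 : ℝ) else c.pl k)
          (if k + 1 = c.K then (c.len : ℝ) else c.pl (k + 1))).indicator (levD 0 c.phi) x -
        n k * e k x) ^ 2 ≤ ε)
    (g : ℝ → ℝ) (hg : ContDiff ℝ 1 g) :
    1 / (8 * (c.len : ℝ) ^ 2) *
        ((∫ x in Set.Icc (0 : ℝ) c.len, g x ^ 2) - ∑ k ∈ range c.K, (∫ x, e k x * g x) ^ 2) -
      c.K * ε * ∫ x in Set.Icc (0 : ℝ) c.len, g x ^ 2 ≤
      ∫ x in Set.Icc (0 : ℝ) c.len, ((1 / 2) * deriv g x ^ 2 + c.u0 x * g x ^ 2) := by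
  have hlen0 : (0 : ℝ) ≤ c.len := Nat.cast_nonneg _
  have hlen1 : (1 : ℝ) ≤ c.len := by
    have : 1 ≤ c.len := by rw [c.len_eq]; omega
    exact_mod_cast this
  have hK := h.K_pos
  have hpos : ∀ x : ℝ, 0 < levD 0 (c.phi : ℤ → ℝ) x :=
    levD_pos fun i => by unfold ChD.phi; positivity
  have hphi : ∀ i j : ℤ, c.sig j ≤ c.sig i → (c.phi i : ℝ) ≤ c.phi j := fun i j hij =>
    pow_le_pow_of_le_one (by norm_num) (by norm_num) hij
  have e1 : ∑ k ∈ range c.K, (∫ x, e k x * g x) ^ 2 =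
      ∑ k ∈ range c.K, (∫ x in (0 : ℝ)..c.len, e k x * g x) ^ 2 :=
    sum_congr rfl fun k hk => by
      rw [fullInt hlen0 fun x hx => hs k (mem_range.1 hk) x (left_ne_zero_of_mul hx)]
  rw [e1, setInt _ hlen0, setInt _ hlen0]
  refine gap_abs hK (A := fun k => ((ends c k : ℤ) : ℝ)) (y := fun k => ((c.l k : ℤ) : ℝ)) hlen1
    (by simp [ends]) ?_ (fun k hk => ?_) (fun k hk => ?_)
    (hasDerivAt_levD (by omega) c.phi) (hasDerivAt_levD (by omega) c.phi)
    (continuous_levD (by omega) c.phi) hpos ?_ ?_ (fun k hk => ?_) (fun k hk => ?_)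
    (fun k hk => ?_) (n := n) he (fun k hk l hl => ?_) (fun k hk => ?_) hg
  · simp [ends, show c.K ≠ 0 by omega]
  · exact_mod_cast ends_le_l c hk
  · have h1 := r_le_ends c hk
    have h2 := c.l_le_r k
    have : (c.l k : ℤ) ≤ ends c (k + 1) := by omega
    exact_mod_cast this
  · simpa using levD_int (n := 1) le_rfl (by omega) c.phi 0
  · simpa using levD_int (n := 1) le_rfl (by omega) c.phi c.len
  · refine monotoneOn_levD fun i h1 h2 => hphi _ _ (h.sig_anti hk ?_ ?_)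
    · unfold ends at h1
      rw [if_neg hk.ne] at h1
      split_ifs at h1 with h0
      · exact Or.inl h0
      · exact Or.inr h1
    · have := c.l_le_r k
      omega
  · refine antitoneOn_levD fun i h1 h2 => hphi _ _ (h.sig_mono hk h1 ?_)
    unfold ends at h2
    rw [if_neg (Nat.succ_ne_zero k)] at h2
    split_ifs at h2 with h0
    · exact Or.inl h0
    · have := c.pl_le_pr (k + 1)
      right
      omega
  · have hc : Continuous fun x : ℝ => levD 0 (c.phi : ℤ → ℝ) x ^ 2 :=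
      (continuous_levD (by omega) c.phi).pow 2
    have a1 : ((ends c k : ℤ) : ℝ) ≤ ((c.l k : ℤ) : ℝ) := by exact_mod_cast ends_le_l c hk
    have a2 : ((c.l k : ℤ) : ℝ) ≤ ((c.r k : ℤ) : ℝ) := by exact_mod_cast c.l_le_r k
    have a3 : ((c.r k : ℤ) : ℝ) ≤ ((ends c (k + 1) : ℤ) : ℝ) := by exact_mod_cast r_le_ends c hk
    refine le_trans ?_ (intervalIntegral.integral_mono_interval a1 a2 a3
      (Filter.Eventually.of_forall fun t => sq_nonneg _) (hc.intervalIntegrable _ _))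
    have a4 : ∫ x in ((c.l k : ℤ) : ℝ)..((c.r k : ℤ) : ℝ), levD 0 (c.phi : ℤ → ℝ) x ^ 2 =
        ∫ _ in ((c.l k : ℤ) : ℝ)..((c.r k : ℤ) : ℝ), (((1 / 2) ^ c.ρ k : ℝ)) ^ 2 := by
      refine intervalIntegral.integral_congr fun x hx => ?_
      rw [Set.uIcc_of_le a2] at hx
      rw [levD_zero_const_on (a := (1 / 2) ^ c.ρ k) (fun i h1 h2 => ?_) hx.1 hx.2]
      unfold ChD.phi
      rw [h.sig_room hk h1 h2]
    rw [a4, intervalIntegral.integral_const, smul_eq_mul, c.r_eq]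
    have a5 : (8 : ℝ) ≤ c.a := by exact_mod_cast h.a_ge8
    have a6 : (4 : ℝ) ^ c.ρ k * ((1 / 2) ^ c.ρ k) ^ 2 = 1 := by
      rw [← pow_mul, mul_comm (c.ρ k) 2, pow_mul, ← mul_pow]
      norm_num
    push_cast
    nlinarith
  · rw [← hon k hk l hl, fullInt hlen0 fun x hx => hs k hk x (left_ne_zero_of_mul hx)]
  · have := hε k hk
    rw [setInt _ hlen0, ← ends_left c hk, ← ends_right c k] at this
    exact this

end Vale.Agent.P370Z
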