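import Vale.Agent.P370Z.CH.Gap

/-!
# P370: the gap clause, the bumps and the zones of the chain
-/

namespace Vale.Agent.P370Z.CH

open MeasureTheory Finset CHB

/-- Bessel's inequality. -/
theorem bessel_le {K : ℕ} {e : ℕ → ℝ → ℝ} {g : ℝ → ℝ} (he : ∀ k < K, Continuous (e k))
    (hg : Continuous g) {a b : ℝ} (hab : a ≤ b)
    (hon : ∀ k < K, ∀ l < K, ∫ x in a..b, e k x * e l x = idm k l) :
    ∑ k ∈ range K, (∫ x in a..b, e k x * g x) ^ 2 ≤ ∫ x in a..b, g x ^ 2 := by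
  set α : ℕ → ℝ := fun k => ∫ x in a..b, e k x * g x with hα
  have cS : Continuous fun x => ∑ k ∈ range K, α k * e k x :=
    continuous_finsetSum _ fun k hk => continuous_const.mul (he k (mem_range.1 hk))
  have i1 : ∀ h : ℝ → ℝ, Continuous h → ∫ x in a..b, (∑ k ∈ range K, α k * e k x) * h x =
      ∑ k ∈ range K, α k * ∫ x in a..b, e k x * h x := fun h hh => by
    simp_rw [sum_mul, mul_assoc]
    rw [intervalIntegral.integral_finsetSum fun k hk =>
      (show Continuous fun x => α k * (e k x * h x) from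
        continuous_const.mul ((he k (mem_range.1 hk)).mul hh)).intervalIntegrable _ _]
    simp_rw [intervalIntegral.integral_const_mul]
  have i2 : ∀ l < K, ∫ x in a..b, e l x * ∑ k ∈ range K, α k * e k x = α l := fun l hl => by
    simp_rw [mul_comm (e l _)]
    rw [i1 _ (he l hl), sum_eq_single l]
    · rw [hon l hl l hl]; simp [idm]
    · intro k hk hkl
      rw [hon k (mem_range.1 hk) l hl]; simp [idm, hkl]
    · intro h; exact absurd (mem_range.2 hl) h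
  have i3 : ∫ x in a..b, (∑ k ∈ range K, α k * e k x) * ∑ k ∈ range K, α k * e k x =
      ∑ k ∈ range K, α k ^ 2 := by
    rw [i1 _ cS]
    exact sum_congr rfl fun k hk => by rw [i2 k (mem_range.1 hk), sq]
  have i4 : ∫ x in a..b, (∑ k ∈ range K, α k * e k x) * g x = ∑ k ∈ range K, α k ^ 2 := by
    rw [i1 _ hg]
    exact sum_congr rfl fun k _ => by rw [sq]
  have c1 : Continuous fun x => 2 * ((∑ k ∈ range K, α k * e k x) * g x) :=
    continuous_const.mul (cS.mul hg)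
  have c2 : Continuous fun x => g x ^ 2 := hg.pow 2
  have c3 : Continuous fun x => (∑ k ∈ range K, α k * e k x) * ∑ k ∈ range K, α k * e k x :=
    cS.mul cS
  have i5 := intervalIntegral.integral_mono_on (μ := volume) hab (c1.intervalIntegrable a b)
    ((c2.intervalIntegrable a b).add (c3.intervalIntegrable a b))
    fun x _ => by nlinarith [sq_nonneg (g x - ∑ k ∈ range K, α k * e k x)]
  rw [intervalIntegral.integral_const_mul, i4,
    intervalIntegral.integral_add (c2.intervalIntegrable a b) (c3.intervalIntegrable a b), i3] at i5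
  linarith

theorem gap_clause (c : ChD) (m0 : ℕ) (θ : ℝ) (h : c.OK m0 θ) (e : ℕ → ℝ → ℝ) (n : ℕ → ℝ) (ε : ℝ)
    (he : ∀ k < c.K, Continuous (e k))
    (hs : ∀ k < c.K, ∀ x, e k x ≠ 0 → 1 ≤ x ∧ x ≤ (c.len : ℝ) - 1)
    (hon : ∀ k < c.K, ∀ l < c.K, ∫ x, e k x * e l x = idm k l)
    (hε : ∀ k < c.K, ∫ x in Set.Icc (0 : ℝ) c.len,
      ((Set.Icc (if k = 0 then (0 : ℝ) else c.pl k)
          (if k + 1 = c.K then (c.len : ℝ) else c.pl (k + 1))).indicator (levD 0 c.phi) x -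
        n k * e k x) ^ 2 ≤ ε)
    (Γ δ : ℝ) (_hΓ0 : 0 ≤ Γ) (hΓ : Γ ≤ 1 / (8 * (c.len : ℝ) ^ 2)) (hδ : c.K * ε ≤ δ)
    (g : ℝ → ℝ) (hg : ContDiff ℝ 1 g) :
    Γ * ((∫ x in Set.Icc (0 : ℝ) c.len, g x ^ 2) - ∑ k ∈ range c.K, (∫ x, e k x * g x) ^ 2) -
      δ * ∫ x in Set.Icc (0 : ℝ) c.len, g x ^ 2 ≤
      ∫ x in Set.Icc (0 : ℝ) c.len, ((1 / 2) * deriv g x ^ 2 + c.u0 x * g x ^ 2) := by
  have hlen0 : (0 : ℝ) ≤ c.len := Nat.cast_nonneg _
  refine le_trans (sub_le_sub (mul_le_mul_of_nonneg_right hΓ ?_)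
    (mul_le_mul_of_nonneg_right hδ (integral_nonneg fun x => sq_nonneg _)))
    (chain_gap c m0 θ h e n ε he hs hon hε g hg)
  have e1 : ∑ k ∈ range c.K, (∫ x, e k x * g x) ^ 2 =
      ∑ k ∈ range c.K, (∫ x in (0 : ℝ)..c.len, e k x * g x) ^ 2 :=
    sum_congr rfl fun k hk => by
      rw [fullInt hlen0 fun x hx => hs k (mem_range.1 hk) x (left_ne_zero_of_mul hx)]
  rw [e1, setInt _ hlen0, sub_nonneg]
  refine bessel_le he hg.continuous hlen0 fun k hk l hl => ?_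
  rw [← hon k hk l hl, fullInt hlen0 fun x hx => hs k hk x (left_ne_zero_of_mul hx)]

theorem bump_cont (c : ChD) (k : ℕ) : Continuous (levD 0 (c.bump k : ℤ → ℝ)) :=
  continuous_levD (by omega) _

theorem bump_nonneg (c : ChD) (k : ℕ) (x : ℝ) : 0 ≤ levD 0 (c.bump k : ℤ → ℝ) x :=
  le_levD (fun i => by unfold ChD.bump; split_ifs <;> norm_num) x

theorem bump_le_one (c : ChD) (k : ℕ) (x : ℝ) : levD 0 (c.bump k : ℤ → ℝ) x ≤ 1 :=
  levD_le (fun i => by unfold ChD.bump; split_ifs <;> norm_num) x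

theorem bump_sum (c : ChD) (x : ℝ) : ∑ k ∈ range c.K, levD 0 (c.bump k : ℤ → ℝ) x ≤ 1 := by
  rw [← levD_sum]
  refine levD_le (fun i => ?_) x
  unfold ChD.bump
  by_cases hex : ∃ k ∈ range c.K, c.zn i = k + 1
  · obtain ⟨k, hk, hi⟩ := hex
    rw [sum_eq_single k]
    · rw [if_pos hi]
    · intro j _ hjk
      rw [if_neg (by omega)]
    · intro h; exact absurd hk h
  · rw [sum_eq_zero fun k hk => if_neg fun hi => hex ⟨k, hk, hi⟩]
    norm_num

/-- on the zone of room `l` the bump `k` is `1` or `0` -/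
theorem bump_zone {c : ChD} {m0 : ℕ} {θ : ℝ} (h : c.OK m0 θ) (k : ℕ) {l : ℕ} (hl : l < c.K) {x : ℝ}
    (hx : x ∈ Set.Icc (c.pr l : ℝ) (c.pl (l + 1))) : levD 0 (c.bump k : ℤ → ℝ) x = idm k l := by
  refine levD_zero_const_on (A := c.pr l) (B := c.pl (l + 1)) (fun i h1 h2 => ?_)
    (by exact_mod_cast hx.1) (by exact_mod_cast hx.2)
  have h3 := h.pl_lt_pr hl.le
  have hz : c.zn i = l + 1 := (c.zn_eq_succ_iff hl i).2 ⟨by omega, h2⟩
  unfold ChD.bump idm
  rw [hz]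
  by_cases hkl : k = l
  · rw [if_pos (by omega), if_pos hkl]
  · rw [if_neg (by omega), if_neg hkl]

theorem abs_int_le {f : ℝ → ℝ} {b C : ℝ} (hb : 0 ≤ b) (hs : ∀ x, f x ≠ 0 → 1 ≤ x ∧ x ≤ b - 1)
    (hC : ∀ x, |f x| ≤ C) : |∫ x, f x| ≤ b * C := by
  rw [fullInt hb hs]
  have := intervalIntegral.norm_integral_le_of_norm_le_const (a := 0) (b := b) (f := f) (C := C)
    fun x _ => hC x
  rwa [Real.norm_eq_abs, sub_zero, abs_of_nonneg hb, mul_comm] at this

theorem integrable_of_supp {f : ℝ → ℝ} {b : ℝ} (hf : Continuous f)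
    (hs : ∀ x, f x ≠ 0 → 1 ≤ x ∧ x ≤ b - 1) : Integrable f :=
  hf.integrable_of_hasCompactSupport
    (HasCompactSupport.intro (K := Set.Icc 1 (b - 1)) isCompact_Icc fun x hx => by
      by_contra hne
      exact hx (hs x hne))

theorem bump_mat {c : ChD} {m0 : ℕ} {θ : ℝ} (h : c.OK m0 θ) (e : ℕ → ℝ → ℝ) (Ce η : ℝ)
    (he : ∀ k < c.K, Continuous (e k))
    (hs : ∀ k < c.K, ∀ x, e k x ≠ 0 → 1 ≤ x ∧ x ≤ (c.len : ℝ) - 1)
    (hon : ∀ k < c.K, ∀ l < c.K, ∫ x, e k x * e l x = idm k l)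
    (hb : ∀ k < c.K, ∀ x, |e k x| ≤ Ce)
    (hz : ∀ k < c.K, ∀ x, x ∉ Set.Icc (c.pr k : ℝ) (c.pl (k + 1)) → |e k x| ≤ η) (hη : 0 ≤ η) :
    ∀ k < c.K, ∀ l < c.K, ∀ l' < c.K,
      |(∫ x, levD 0 (c.bump k) x * (e l x * e l' x)) - idm k l * idm k l'| ≤ c.len * Ce * η := by
  intro k _ l hl l' hl'
  have hCe : 0 ≤ Ce := (abs_nonneg _).trans (hb l hl 0)
  have s1 : ∀ u : ℝ → ℝ, ∀ x, u x * (e l x * e l' x) ≠ 0 → 1 ≤ x ∧ x ≤ (c.len : ℝ) - 1 :=
    fun u x hx => hs l hl x (left_ne_zero_of_mul (right_ne_zero_of_mul hx))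
  have c1 : Continuous fun x => levD 0 (c.bump k : ℤ → ℝ) x * (e l x * e l' x) :=
    (bump_cont c k).mul ((he l hl).mul (he l' hl'))
  have c2 : Continuous fun x => idm k l * (e l x * e l' x) :=
    continuous_const.mul ((he l hl).mul (he l' hl'))
  have e1 : idm k l * idm k l' = ∫ x, idm k l * (e l x * e l' x) := by
    rw [integral_const_mul, hon l hl l' hl']
    unfold idm
    by_cases hkl : k = l
    · subst hkl; rfl
    · simp [hkl]
  rw [e1, ← integral_sub (integrable_of_supp c1 (s1 _)) (integrable_of_supp c2 (s1 fun _ => _)),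
    mul_assoc]
  simp_rw [← sub_mul]
  refine abs_int_le (Nat.cast_nonneg _) (s1 fun x => levD 0 (c.bump k) x - idm k l) fun x => ?_
  by_cases hx : x ∈ Set.Icc (c.pr l : ℝ) (c.pl (l + 1))
  · rw [bump_zone h k hl hx, sub_self, zero_mul, abs_zero]
    positivity
  · have b1 : |levD 0 (c.bump k : ℤ → ℝ) x - idm k l| ≤ 1 := by
      have := bump_nonneg c k x
      have := bump_le_one c k x
      unfold idm
      rw [abs_le]
      split_ifs <;> constructor <;> linarith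
    rw [abs_mul, abs_mul]
    calc _ ≤ 1 * (η * Ce) :=
          mul_le_mul b1 (mul_le_mul (hz l hl x hx) (hb l' hl' x) (abs_nonneg _) hη)
            (by positivity) zero_le_one
      _ = Ce * η := by ring

theorem zone_clause {c : ChD} (e : ℕ → ℝ → ℝ) (η : ℝ)
    (hs : ∀ k < c.K, ∀ x, e k x ≠ 0 → 1 ≤ x ∧ x ≤ (c.len : ℝ) - 1)
    (hz : ∀ k < c.K, ∀ x, x ∉ Set.Icc (c.pr k : ℝ) (c.pl (k + 1)) → |e k x| ≤ η) :
    ∀ k < c.K, ∫ x in (Set.Icc (c.pr k : ℝ) (c.pl (k + 1)))ᶜ, e k x ^ 2 ≤ c.len * η ^ 2 := by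
  intro k hk
  rw [← integral_indicator measurableSet_Icc.compl]
  refine (le_abs_self _).trans (abs_int_le (Nat.cast_nonneg _) (fun x hx => ?_) fun x => ?_)
  · refine hs k hk x fun h0 => hx ?_
    simp [Set.indicator, h0]
  · by_cases hx : x ∈ (Set.Icc (c.pr k : ℝ) (c.pl (k + 1)))ᶜ
    · rw [Set.indicator_of_mem hx, abs_pow]
      exact pow_le_pow_left₀ (abs_nonneg _) (hz k hk x hx) 2
    · rw [Set.indicator_of_notMem hx, abs_zero]
      positivity

end Vale.Agent.P370Z.CH
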