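import Vale.Agent.P370Z.Basic

/-!
# P370: the spectral gap of a chain, abstract form
-/

namespace Vale.Agent.P370Z.CHB

open MeasureTheory Finset intervalIntegral

/-- Cauchy-Schwarz on an interval. -/
theorem sq_integral_le {h : ℝ → ℝ} (hh : Continuous h) {a b : ℝ} (hab : a ≤ b) :
    (∫ t in a..b, h t) ^ 2 ≤ (b - a) * ∫ t in a..b, h t ^ 2 := by
  rcases hab.eq_or_lt with rfl | hlt
  · simp
  set m := (∫ t in a..b, h t) / (b - a) with hm
  have hba : 0 < b - a := sub_pos.2 hlt
  have h0 : 0 ≤ ∫ t in a..b, (h t - m) ^ 2 :=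
    intervalIntegral.integral_nonneg hab fun t _ => sq_nonneg _
  have h1 : ∫ t in a..b, (h t - m) ^ 2 =
      (∫ t in a..b, h t ^ 2) - 2 * m * (∫ t in a..b, h t) + (b - a) * m ^ 2 := by
    have e : ∀ t, (h t - m) ^ 2 = h t ^ 2 - 2 * m * h t + m ^ 2 := fun t => by ring
    simp_rw [e]
    rw [intervalIntegral.integral_add, intervalIntegral.integral_sub,
      intervalIntegral.integral_const_mul, intervalIntegral.integral_const, smul_eq_mul]
    · exact (hh.pow 2).intervalIntegrable _ _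
    · exact (continuous_const.mul hh).intervalIntegrable _ _
    · exact ((hh.pow 2).sub (continuous_const.mul hh)).intervalIntegrable _ _
    · exact continuous_const.intervalIntegrable _ _
  have h2 : ∫ t in a..b, h t = m * (b - a) := by rw [hm]; field_simp
  rw [h1, h2] at h0
  rw [h2]
  nlinarith

/-- Weighted Poincare inequality on one territory. -/
theorem poincare {φ f f1 : ℝ → ℝ} (hφ : Continuous φ) (hpos : ∀ x, 0 < φ x)
    (hf : ∀ x, HasDerivAt f (f1 x) x) (hf1 : Continuous f1) {a y b : ℝ} (hay : a ≤ y) (hyb : y ≤ b)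
    (hm : MonotoneOn φ (Set.Icc a y)) (ha : AntitoneOn φ (Set.Icc y b)) :
    ∫ x in a..b, (φ x * (f x - f y)) ^ 2 ≤ (b - a) ^ 2 * ∫ x in a..b, (φ x * f1 x) ^ 2 := by
  have hab : a ≤ b := hay.trans hyb
  have hc : Continuous fun x => (φ x * f1 x) ^ 2 := (hφ.mul hf1).pow 2
  have hfc : Continuous f := continuous_iff_continuousAt.2 fun x => (hf x).continuousAt
  set I := ∫ x in a..b, (φ x * f1 x) ^ 2 with hI
  have hI0 : 0 ≤ I := intervalIntegral.integral_nonneg hab fun t _ => sq_nonneg _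
  have key : ∀ x u v : ℝ, a ≤ u → u ≤ v → v ≤ b → (∀ t ∈ Set.Icc u v, φ x ≤ φ t) →
      (φ x * (f v - f u)) ^ 2 ≤ (b - a) * I := by
    intro x u v hau huv hvb hle
    have e1 : ∫ t in u..v, f1 t = f v - f u :=
      integral_eq_sub_of_hasDerivAt (fun t _ => hf t) (hf1.intervalIntegrable _ _)
    have e2 := sq_integral_le hf1 huv
    have e3 : φ x ^ 2 * ∫ t in u..v, f1 t ^ 2 ≤ ∫ t in u..v, (φ t * f1 t) ^ 2 := by
      rw [← intervalIntegral.integral_const_mul]
      refine intervalIntegral.integral_mono_on huv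
        ((continuous_const.mul (hf1.pow 2)).intervalIntegrable _ _) (hc.intervalIntegrable _ _)
        fun t ht => ?_
      rw [mul_pow]
      exact mul_le_mul_of_nonneg_right (pow_le_pow_left₀ (hpos x).le (hle t ht) 2) (sq_nonneg _)
    have e4 : ∫ t in u..v, (φ t * f1 t) ^ 2 ≤ I :=
      intervalIntegral.integral_mono_interval hau huv hvb
        (Filter.Eventually.of_forall fun t => sq_nonneg _) (hc.intervalIntegrable _ _)
    rw [← e1, mul_pow]
    calc φ x ^ 2 * (∫ t in u..v, f1 t) ^ 2 ≤ φ x ^ 2 * ((v - u) * ∫ t in u..v, f1 t ^ 2) :=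
          mul_le_mul_of_nonneg_left e2 (sq_nonneg _)
      _ = (v - u) * (φ x ^ 2 * ∫ t in u..v, f1 t ^ 2) := by ring
      _ ≤ (v - u) * I := mul_le_mul_of_nonneg_left (e3.trans e4) (by linarith)
      _ ≤ (b - a) * I := mul_le_mul_of_nonneg_right (by linarith) hI0
  have hpt : ∀ x ∈ Set.Icc a b, (φ x * (f x - f y)) ^ 2 ≤ (b - a) * I := by
    intro x hx
    rcases le_total x y with hxy | hxy
    · have := key x x y hx.1 hxy hyb fun t ht =>
        hm ⟨hx.1, hxy⟩ ⟨hx.1.trans ht.1, ht.2⟩ ht.1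
      calc (φ x * (f x - f y)) ^ 2 = (φ x * (f y - f x)) ^ 2 := by ring
        _ ≤ _ := this
    · exact key x y x hay hxy hx.2 fun t ht => ha ⟨ht.1, ht.2.trans hx.2⟩ ⟨hxy, hx.2⟩ ht.2
  calc ∫ x in a..b, (φ x * (f x - f y)) ^ 2 ≤ ∫ _ in a..b, (b - a) * I :=
        intervalIntegral.integral_mono_on hab
          (((hφ.mul (hfc.sub continuous_const)).pow 2).intervalIntegrable _ _)
          (continuous_const.intervalIntegrable _ _) hpt
    _ = (b - a) ^ 2 * I := by rw [intervalIntegral.integral_const, smul_eq_mul]; ring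

/-- The ground state substitution. -/
theorem ground {φ φ1 φ2 g : ℝ → ℝ} (h0 : ∀ x, HasDerivAt φ (φ1 x) x)
    (h1 : ∀ x, HasDerivAt φ1 (φ2 x) x) (h2 : Continuous φ2) (hpos : ∀ x, 0 < φ x)
    (hg : ContDiff ℝ 1 g) {a b : ℝ} (ha : φ1 a = 0) (hb : φ1 b = 0) :
    ∫ x in a..b, ((1 / 2) * deriv g x ^ 2 + φ2 x / (2 * φ x) * g x ^ 2) =
      (1 / 2) * ∫ x in a..b, (φ x * ((deriv g x * φ x - g x * φ1 x) / φ x ^ 2)) ^ 2 := by
  have c0 : Continuous φ := continuous_iff_continuousAt.2 fun x => (h0 x).continuousAt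
  have c1 : Continuous φ1 := continuous_iff_continuousAt.2 fun x => (h1 x).continuousAt
  have cg : Continuous g := hg.continuous
  have cg1 : Continuous (deriv g) := hg.continuous_deriv le_rfl
  have dg : ∀ x, HasDerivAt g (deriv g x) x := fun x =>
    (hg.differentiable (by norm_num) x).hasDerivAt
  have hne : ∀ x, φ x ≠ 0 := fun x => (hpos x).ne'
  set w : ℝ → ℝ := fun x => ((φ2 x * g x ^ 2 + φ1 x * (2 * g x * deriv g x)) * φ x
    - φ1 x * g x ^ 2 * φ1 x) / φ x ^ 2 with hw
  have dw : ∀ x, HasDerivAt (fun x => φ1 x * g x ^ 2 / φ x) (w x) x := fun x => by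
    have := ((h1 x).fun_mul ((dg x).fun_pow 2)).fun_div (h0 x) (hne x)
    refine this.congr_deriv ?_
    simp [hw]
  have cw : Continuous w := by
    refine Continuous.div (by fun_prop) (by fun_prop) fun x => pow_ne_zero 2 (hne x)
  have e1 : ∫ x in a..b, w x = 0 := by
    rw [integral_eq_sub_of_hasDerivAt (fun x _ => dw x) (cw.intervalIntegrable _ _), ha, hb]
    simp
  have cq : Continuous fun x => (φ x * ((deriv g x * φ x - g x * φ1 x) / φ x ^ 2)) ^ 2 :=
    (c0.mul (Continuous.div (by fun_prop) (by fun_prop) fun x => pow_ne_zero 2 (hne x))).pow 2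
  have e2 : ∀ x, (1 / 2) * deriv g x ^ 2 + φ2 x / (2 * φ x) * g x ^ 2 =
      (1 / 2) * ((φ x * ((deriv g x * φ x - g x * φ1 x) / φ x ^ 2)) ^ 2 + w x) := fun x => by
    have := hne x
    simp only [hw]
    field_simp
    ring
  simp_rw [e2]
  rw [intervalIntegral.integral_const_mul,
    intervalIntegral.integral_add (cq.intervalIntegrable _ _) (cw.intervalIntegrable _ _), e1,
    add_zero]

/-- Bessel: the distance to the span is at most the distance to any element of the span. -/
theorem bessel {K : ℕ} {e : ℕ → ℝ → ℝ} {g : ℝ → ℝ} (he : ∀ k < K, Continuous (e k))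
    (hg : Continuous g) {a b : ℝ}
    (hon : ∀ k < K, ∀ l < K, ∫ x in a..b, e k x * e l x = idm k l) (α : ℕ → ℝ) :
    (∫ x in a..b, g x ^ 2) - ∑ k ∈ range K, (∫ x in a..b, e k x * g x) ^ 2 ≤
      ∫ x in a..b, (g x - ∑ k ∈ range K, α k * e k x) ^ 2 := by
  have e1 : ∀ x, (g x - ∑ k ∈ range K, α k * e k x) ^ 2 =
      g x ^ 2 - ∑ k ∈ range K, 2 * α k * (e k x * g x) +
        ∑ k ∈ range K, ∑ l ∈ range K, α k * α l * (e k x * e l x) := fun x => by
    rw [sub_sq, sq (∑ k ∈ range K, _), sum_mul_sum, mul_sum]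
    congr 1
    · congr 1
      exact sum_congr rfl fun k _ => by ring
    · exact sum_congr rfl fun k _ => sum_congr rfl fun l _ => by ring
  have i1 : ∀ k ∈ range K, IntervalIntegrable (fun x => 2 * α k * (e k x * g x)) volume a b :=
    fun k hk => (continuous_const.mul ((he k (mem_range.1 hk)).mul hg)).intervalIntegrable _ _
  have c2 : ∀ k ∈ range K, ∀ l ∈ range K, Continuous fun x => α k * α l * (e k x * e l x) :=
    fun k hk l hl => continuous_const.mul ((he k (mem_range.1 hk)).mul (he l (mem_range.1 hl)))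
  have c1 : Continuous fun x => ∑ k ∈ range K, 2 * α k * (e k x * g x) :=
    continuous_finsetSum _ fun k hk => continuous_const.mul ((he k (mem_range.1 hk)).mul hg)
  have c3 : ∀ k ∈ range K, Continuous fun x => ∑ l ∈ range K, α k * α l * (e k x * e l x) :=
    fun k hk => continuous_finsetSum _ fun l hl => c2 k hk l hl
  have c4 : Continuous fun x => g x ^ 2 := hg.pow 2
  have c5 : Continuous fun x => g x ^ 2 - ∑ k ∈ range K, 2 * α k * (e k x * g x) := c4.sub c1
  simp_rw [e1]
  rw [intervalIntegral.integral_add (c5.intervalIntegrable _ _)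
      ((continuous_finsetSum _ c3).intervalIntegrable _ _),
    intervalIntegral.integral_sub (c4.intervalIntegrable _ _) (c1.intervalIntegrable _ _),
    intervalIntegral.integral_finsetSum i1,
    intervalIntegral.integral_finsetSum fun k hk => (c3 k hk).intervalIntegrable _ _]
  have e2 : ∀ k ∈ range K, ∫ x in a..b, ∑ l ∈ range K, α k * α l * (e k x * e l x) = α k ^ 2 := by
    intro k hk
    rw [intervalIntegral.integral_finsetSum fun l hl => (c2 k hk l hl).intervalIntegrable _ _]
    rw [sum_eq_single k]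
    · rw [intervalIntegral.integral_const_mul, hon k (mem_range.1 hk) k (mem_range.1 hk)]
      simp [idm, sq]
    · intro l hl hlk
      rw [intervalIntegral.integral_const_mul, hon k (mem_range.1 hk) l (mem_range.1 hl)]
      simp [idm, hlk.symm]
    · intro h; exact absurd hk h
  rw [sum_congr rfl e2]
  simp_rw [intervalIntegral.integral_const_mul]
  have : ∑ k ∈ range K, (2 * α k * (∫ x in a..b, e k x * g x) - α k ^ 2) ≤
      ∑ k ∈ range K, (∫ x in a..b, e k x * g x) ^ 2 :=
    sum_le_sum fun k _ => by nlinarith [sq_nonneg (α k - ∫ x in a..b, e k x * g x)]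
  rw [sum_sub_distrib] at this
  linarith

theorem mono_of_step {K : ℕ} {A : ℕ → ℝ} (hA : ∀ k < K, A k ≤ A (k + 1)) {i j : ℕ} (hij : i ≤ j)
    (hj : j ≤ K) : A i ≤ A j := by
  induction j, hij using Nat.le_induction with
  | base => exact le_rfl
  | succ j hij ih => exact (ih (by omega)).trans (hA j (by omega))

/-- The abstract gap estimate. -/
theorem gap_abs {K : ℕ} (hK : 1 ≤ K) {A y : ℕ → ℝ} {Λ : ℝ} (hΛ : 1 ≤ Λ) (hA0 : A 0 = 0)
    (hAK : A K = Λ) (hAy : ∀ k < K, A k ≤ y k) (hyA : ∀ k < K, y k ≤ A (k + 1))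
    {φ φ1 φ2 : ℝ → ℝ} (h0 : ∀ x, HasDerivAt φ (φ1 x) x)
    (h1 : ∀ x, HasDerivAt φ1 (φ2 x) x) (h2 : Continuous φ2) (hpos : ∀ x, 0 < φ x)
    (ha : φ1 0 = 0) (hb : φ1 Λ = 0)
    (hm : ∀ k < K, MonotoneOn φ (Set.Icc (A k) (y k)))
    (han : ∀ k < K, AntitoneOn φ (Set.Icc (y k) (A (k + 1))))
    (hmass : ∀ k < K, 8 ≤ ∫ x in A k..A (k + 1), φ x ^ 2)
    {e : ℕ → ℝ → ℝ} {n : ℕ → ℝ} {ε : ℝ} (he : ∀ k < K, Continuous (e k))
    (hon : ∀ k < K, ∀ l < K, ∫ x in (0 : ℝ)..Λ, e k x * e l x = idm k l)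
    (hε : ∀ k < K, ∫ x in (0 : ℝ)..Λ,
      ((Set.Icc (A k) (A (k + 1))).indicator φ x - n k * e k x) ^ 2 ≤ ε)
    {g : ℝ → ℝ} (hg : ContDiff ℝ 1 g) :
    1 / (8 * Λ ^ 2) *
        ((∫ x in (0 : ℝ)..Λ, g x ^ 2) - ∑ k ∈ range K, (∫ x in (0 : ℝ)..Λ, e k x * g x) ^ 2) -
      K * ε * ∫ x in (0 : ℝ)..Λ, g x ^ 2 ≤
      ∫ x in (0 : ℝ)..Λ, ((1 / 2) * deriv g x ^ 2 + φ2 x / (2 * φ x) * g x ^ 2) := by
  have hΛ0 : 0 ≤ Λ := by linarith
  have c0 : Continuous φ := continuous_iff_continuousAt.2 fun x => (h0 x).continuousAt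
  have c1 : Continuous φ1 := continuous_iff_continuousAt.2 fun x => (h1 x).continuousAt
  have cg : Continuous g := hg.continuous
  have cg1 : Continuous (deriv g) := hg.continuous_deriv le_rfl
  have dg : ∀ x, HasDerivAt g (deriv g x) x := fun x =>
    (hg.differentiable (by norm_num) x).hasDerivAt
  have hne : ∀ x, φ x ≠ 0 := fun x => (hpos x).ne'
  have hstep : ∀ k < K, A k ≤ A (k + 1) := fun k hk => (hAy k hk).trans (hyA k hk)
  have hAlo : ∀ k ≤ K, 0 ≤ A k := fun k hk => hA0 ▸ mono_of_step hstep (Nat.zero_le k) hk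
  have hAhi : ∀ k ≤ K, A k ≤ Λ := fun k hk => hAK ▸ mono_of_step hstep hk le_rfl
  have hsum : ∀ h : ℝ → ℝ, (∀ a b, IntervalIntegrable h volume a b) →
      ∑ k ∈ range K, ∫ x in A k..A (k + 1), h x = ∫ x in (0 : ℝ)..Λ, h x := fun h hh => by
    rw [intervalIntegral.sum_integral_adjacent_intervals fun k _ => hh _ _, hA0, hAK]
  rw [ground h0 h1 h2 hpos hg ha hb]
  set f : ℝ → ℝ := fun x => g x / φ x with hf
  set f1 : ℝ → ℝ := fun x => (deriv g x * φ x - g x * φ1 x) / φ x ^ 2 with hf1
  have df : ∀ x, HasDerivAt f (f1 x) x := fun x => (dg x).div (h0 x) (hne x)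
  have cf1 : Continuous f1 :=
    Continuous.div (by fun_prop) (by fun_prop) fun x => pow_ne_zero 2 (hne x)
  have cq : Continuous fun x => (φ x * f1 x) ^ 2 := (c0.mul cf1).pow 2
  change _ ≤ (1 / 2) * ∫ x in (0 : ℝ)..Λ, (φ x * f1 x) ^ 2
  set Q := ∫ x in (0 : ℝ)..Λ, (φ x * f1 x) ^ 2 with hQ
  set G := ∫ x in (0 : ℝ)..Λ, g x ^ 2 with hG
  have hQ0 : 0 ≤ Q := intervalIntegral.integral_nonneg hΛ0 fun t _ => sq_nonneg _
  have hG0 : 0 ≤ G := intervalIntegral.integral_nonneg hΛ0 fun t _ => sq_nonneg _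
  have hε0 : 0 ≤ ε :=
    (intervalIntegral.integral_nonneg hΛ0 fun t _ => sq_nonneg _).trans (hε 0 (by omega))
  set cc : ℕ → ℝ := fun k => f (y k) with hcc
  set ρ : ℕ → ℝ := fun k => ∫ x in A k..A (k + 1), (g x - cc k * φ x) ^ 2 with hρ
  have hρ1 : ∑ k ∈ range K, ρ k ≤ Λ ^ 2 * Q := by
    rw [hQ, ← hsum _ (fun a b => cq.intervalIntegrable a b), mul_sum]
    refine sum_le_sum fun k hk => ?_
    have hk' := mem_range.1 hk
    have p1 := poincare c0 hpos df cf1 (hAy k hk') (hyA k hk') (hm k hk') (han k hk')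
    have e1 : ρ k = ∫ x in A k..A (k + 1), (φ x * (f x - f (y k))) ^ 2 := by
      refine intervalIntegral.integral_congr fun x _ => ?_
      have := hne x
      simp only [hf, hcc]
      field_simp
    rw [e1]
    refine p1.trans (mul_le_mul_of_nonneg_right ?_
      (intervalIntegral.integral_nonneg (hstep k hk') fun t _ => sq_nonneg _))
    have := hAlo k hk'.le
    have := hAhi (k + 1) hk'
    have := hstep k hk'
    exact pow_le_pow_left₀ (by linarith) (by linarith) 2
  have cg2 : Continuous fun x => g x ^ 2 := cg.pow 2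
  have hc1 : ∑ k ∈ range K, cc k ^ 2 ≤ (G + Λ ^ 2 * Q) / 4 := by
    have : ∑ k ∈ range K, 4 * cc k ^ 2 ≤
        ∑ k ∈ range K, ((∫ x in A k..A (k + 1), g x ^ 2) + ρ k) := by
      refine sum_le_sum fun k hk => ?_
      have hk' := mem_range.1 hk
      have cr : Continuous fun x => (g x - cc k * φ x) ^ 2 := by fun_prop
      have e1 : cc k ^ 2 * ∫ x in A k..A (k + 1), φ x ^ 2 ≤
          2 * ((∫ x in A k..A (k + 1), g x ^ 2) + ρ k) := by
        simp only [hρ]
        rw [← intervalIntegral.integral_add (cg2.intervalIntegrable _ _)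
          (cr.intervalIntegrable _ _), ← intervalIntegral.integral_const_mul,
          ← intervalIntegral.integral_const_mul]
        refine intervalIntegral.integral_mono_on (hstep k hk')
          ((continuous_const.mul (c0.pow 2)).intervalIntegrable _ _)
          ((continuous_const.mul ((cg.pow 2).add cr)).intervalIntegrable _ _) fun x _ => ?_
        nlinarith [sq_nonneg (2 * g x - cc k * φ x)]
      have e2 := mul_le_mul_of_nonneg_left (hmass k hk') (sq_nonneg (cc k))
      linarith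
    rw [sum_add_distrib, hsum _ (fun a b => cg2.intervalIntegrable a b), ← mul_sum] at this
    linarith
  set χ : ℕ → ℝ → ℝ := fun k => (Set.Icc (A k) (A (k + 1))).indicator φ with hχ
  have iχ : ∀ k, ∀ h : ℝ → ℝ, Continuous h → ∀ a b,
      IntervalIntegrable (fun x => χ k x * h x) volume a b := fun k h hh a b => by
    have : (fun x => χ k x * h x) = (Set.Icc (A k) (A (k + 1))).indicator fun x => φ x * h x := by
      funext x
      simp only [hχ, Set.indicator]
      split_ifs <;> simp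
    rw [this]
    exact ⟨((c0.mul hh).intervalIntegrable a b).1.indicator measurableSet_Icc,
      ((c0.mul hh).intervalIntegrable a b).2.indicator measurableSet_Icc⟩
  have id2 : ∀ k < K, ∀ a b, IntervalIntegrable (fun x => (χ k x - n k * e k x) ^ 2) volume a b :=
    fun k hk a b => by
    have e1 : (fun x => (χ k x - n k * e k x) ^ 2) =
        fun x => χ k x * (φ x - 2 * n k * e k x) + (n k * e k x) ^ 2 := by
      funext x
      simp only [hχ, Set.indicator]
      split_ifs <;> ring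
    rw [e1]
    exact (iχ k _ (c0.sub (continuous_const.mul (he k hk))) a b).add
      (((continuous_const.mul (he k hk)).pow 2).intervalIntegrable a b)
  have cS : Continuous fun x => ∑ k ∈ range K, cc k * n k * e k x :=
    continuous_finsetSum _ fun k hk => continuous_const.mul (he k (mem_range.1 hk))
  have iD : ∀ a b, IntervalIntegrable
      (fun x => ∑ k ∈ range K, (χ k x - n k * e k x) ^ 2) volume a b := fun a b => by
    have := IntervalIntegrable.sum (range K) (f := fun k x => (χ k x - n k * e k x) ^ 2)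
      fun k hk => id2 k (mem_range.1 hk) a b
    have e1 : (fun x => ∑ k ∈ range K, (χ k x - n k * e k x) ^ 2) =
        ∑ k ∈ range K, fun x => (χ k x - n k * e k x) ^ 2 := by
      funext x
      simp
    rw [e1]
    exact this
  set C2 := ∑ k ∈ range K, cc k ^ 2 with hC2
  have hC20 : 0 ≤ C2 := sum_nonneg fun k _ => sq_nonneg _
  have hdist : ∫ x in (0 : ℝ)..Λ, (g x - ∑ k ∈ range K, cc k * n k * e k x) ^ 2 ≤
      2 * (Λ ^ 2 * Q) + 2 * C2 * (K * ε) := by
    have s1 : ∑ k ∈ range K, ∫ x in A k..A (k + 1), (g x - ∑ j ∈ range K, cc j * n j * e j x) ^ 2 ≤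
        ∑ k ∈ range K, (2 * ρ k +
          2 * C2 * ∫ x in A k..A (k + 1), ∑ j ∈ range K, (χ j x - n j * e j x) ^ 2) := by
      refine sum_le_sum fun k hk => ?_
      have hk' := mem_range.1 hk
      have cr : Continuous fun x => (g x - cc k * φ x) ^ 2 := by fun_prop
      have cr2 : Continuous fun x => 2 * (g x - cc k * φ x) ^ 2 := by fun_prop
      simp only [hρ]
      rw [← intervalIntegral.integral_const_mul, ← intervalIntegral.integral_const_mul,
        ← intervalIntegral.integral_add (cr2.intervalIntegrable _ _) ((iD _ _).const_mul _)]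
      refine intervalIntegral.integral_mono_on_of_le_Ioo (hstep k hk')
        (((cg.sub cS).pow 2).intervalIntegrable _ _)
        ((cr2.intervalIntegrable _ _).add ((iD _ _).const_mul _))
        fun x hx => ?_
      have e1 : ∑ j ∈ range K, cc j * χ j x = cc k * φ x := by
        rw [sum_eq_single k]
        · simp only [hχ]
          rw [Set.indicator_of_mem (Set.Ioo_subset_Icc_self hx)]
        · intro j hj hjk
          have hj' := mem_range.1 hj
          simp only [hχ]
          rw [Set.indicator_of_notMem, mul_zero]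
          intro hx'
          rcases lt_or_gt_of_ne hjk with h | h
          · have := mono_of_step hstep (show j + 1 ≤ k from h) hk'.le
            linarith [hx'.2, hx.1]
          · have := mono_of_step hstep (show k + 1 ≤ j from h) hj'.le
            linarith [hx'.1, hx.2]
        · intro h; exact absurd hk h
      have e2 : g x - ∑ j ∈ range K, cc j * n j * e j x =
          (g x - cc k * φ x) + ∑ j ∈ range K, cc j * (χ j x - n j * e j x) := by
        simp_rw [mul_sub]
        rw [sum_sub_distrib, e1]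
        simp_rw [mul_assoc]
        ring
      have e3 := sum_mul_sq_le_sq_mul_sq (range K) cc fun j => χ j x - n j * e j x
      rw [e2]
      nlinarith [sq_nonneg ((g x - cc k * φ x) - ∑ j ∈ range K, cc j * (χ j x - n j * e j x))]
    have cS2 : Continuous fun x => (g x - ∑ j ∈ range K, cc j * n j * e j x) ^ 2 :=
      (cg.sub cS).pow 2
    rw [hsum _ (fun a b => cS2.intervalIntegrable a b), sum_add_distrib,
      ← mul_sum, ← mul_sum, hsum _ iD,
      intervalIntegral.integral_finsetSum fun k hk => id2 k (mem_range.1 hk) _ _] at s1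
    have s2 : ∑ j ∈ range K, ∫ x in (0 : ℝ)..Λ, (χ j x - n j * e j x) ^ 2 ≤ K * ε := by
      have := sum_le_card_nsmul (range K) _ ε fun k hk => hε k (mem_range.1 hk)
      simpa using this
    have s3 := mul_le_mul_of_nonneg_left s2 (show 0 ≤ 2 * C2 by positivity)
    linarith
  have hB := (bessel he cg hon fun k => cc k * n k).trans hdist
  have hS0 : 0 ≤ ∑ k ∈ range K, (∫ x in (0 : ℝ)..Λ, e k x * g x) ^ 2 :=
    sum_nonneg fun k _ => sq_nonneg _
  set D := G - ∑ k ∈ range K, (∫ x in (0 : ℝ)..Λ, e k x * g x) ^ 2 with hD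
  have hη0 : 0 ≤ (K : ℝ) * ε := by positivity
  set η := (K : ℝ) * ε
  have hΛ2 : 1 ≤ Λ ^ 2 := one_le_pow₀ hΛ
  have hLQ : 0 ≤ Λ ^ 2 * Q := by positivity
  have hfin : D ≤ 8 * Λ ^ 2 * (1 / 2 * Q + η * G) := by
    have t1 : η * G ≤ Λ ^ 2 * (η * G) := le_mul_of_one_le_left (by positivity) hΛ2
    rcases le_total η 4 with h | h
    · have t2 : 2 * C2 * η ≤ 2 * ((G + Λ ^ 2 * Q) / 4) * η :=
        mul_le_mul_of_nonneg_right (by linarith) hη0
      have t3 : Λ ^ 2 * Q * η ≤ Λ ^ 2 * Q * 4 := mul_le_mul_of_nonneg_left h hLQ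
      have t4 : 0 ≤ η * G := by positivity
      nlinarith
    · have t2 : 4 * G ≤ η * G := mul_le_mul_of_nonneg_right h hG0
      nlinarith
  rw [sub_le_iff_le_add, one_div_mul_eq_div, div_le_iff₀ (by positivity)]
  linarith

end Vale.Agent.P370Z.CHB
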