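import Vale.Agent.P370Z.CH.Mat
import Vale.Agent.P370Z.CH.Gap2

/-!
# P370, block CH: the band of the chain of rooms
-/

namespace Vale.Agent.P370Z

open MeasureTheory Finset CH

theorem chain : ∃ (C : ℝ) (κ : ℕ), 1 ≤ C ∧ ∀ (c : ChD) (m0 : ℕ) (θ cm M : ℝ), c.OK m0 θ →
    (∀ j, 0 < j → j < c.K → c.hop j ≤ cm) → 0 ≤ cm → 2 ≤ M → (c.len : ℝ) ≤ M → M ^ κ * θ ≤ 1 →
    ∃ e : ℕ → ℝ → ℝ, Band1 c.K c.len c.u0 e (fun k => levD 0 (c.bump k)) (lapM c.K c.hop)
      (fun k => c.pr k) (fun k => c.pl (k + 1)) (fun k => C * (1 / 4) ^ c.ρ k / c.a) C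
      (1 / (C * (c.len : ℝ) ^ 2)) (M ^ κ * θ) (C * cm / m0 + M ^ κ * θ ^ 2) (M ^ κ * θ)
      (M ^ κ * √θ) (M ^ κ * θ) := by
  have b1 := betaB_pos
  have b2 := eC_pos
  obtain ⟨κ0, hκ0⟩ := pow_unbounded_of_one_lt (10 + 2 * betaB + 4 * betaB ^ 2 + 2 * eC)
    (one_lt_two : (1 : ℝ) < 2)
  refine ⟨betaB + eC + 28, κ0 + 5, by linarith, ?_⟩
  intro c m0 θ cm M h hcm hcm0 hM hlen hθ
  have a := len_ge c
  have b := h.θ_pos
  have b3 := sq_nonneg betaB
  have key : ∀ (D : ℝ) (i : ℕ), D ≤ 10 + 2 * betaB + 4 * betaB ^ 2 + 2 * eC → i ≤ 5 →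
      D * (c.len : ℝ) ^ i ≤ M ^ (κ0 + 5) := by
    intro D i hD hi
    rw [pow_add]
    refine mul_le_mul (hD.trans (hκ0.le.trans (pow_le_pow_left₀ (by norm_num) hM _))) ?_
      (by positivity) (by positivity)
    exact (pow_le_pow_left₀ (by positivity) hlen i).trans (pow_le_pow_right₀ (by linarith) hi)
  have hs : Sm c θ :=
    (mul_le_mul_of_nonneg_right (key 4 3 (by linarith) (by omega)) b.le).trans hθ
  have hm : (0 : ℝ) ≤ m0 := Nat.cast_nonneg _
  have he : ∀ k < c.K, Continuous (ee c k) := fun k _ => ee_cont c k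
  have hsup : ∀ k < c.K, ∀ x, ee c k x ≠ 0 → 1 ≤ x ∧ x ≤ (c.len : ℝ) - 1 :=
    fun k hk => ee_supp h hk
  have hon : ∀ k < c.K, ∀ l < c.K, ∫ x, ee c k x * ee c l x = idm k l :=
    fun k hk l hl => ee_on h hk hl
  have hz : ∀ k < c.K, ∀ x, x ∉ Set.Icc (c.pr k : ℝ) (c.pl (k + 1)) →
      |ee c k x| ≤ 2 * c.len * √θ := fun k hk => ee_out h hs hk
  refine ⟨ee c, u0_cont c, fun x => (u0_le h x).trans (by linarith),
    fun k hk => (bd_ee h hs hk).monoC (by linarith) fun _ => zero_le_one, hsup, hon,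
    fun k hk x => (res_ee h hs hk x).trans ?_, fun k hk l hl => (mat_ee h hs hcm hcm0 hk hl).trans ?_,
    fun g hg => ?_, fun k _ => bump_cont c k, fun k _ => bump_nonneg c k, bump_sum c,
    fun k hk l hl l' hl' => ?_, fun k hk => (zone_clause _ _ hsup hz k hk).trans ?_,
    fun k hk x hx => (ee_sup h hk x hx).trans ?_⟩
  · exact mul_le_mul_of_nonneg_right (key _ 2 (by linarith) (by omega)) b.le
  · refine add_le_add (by gcongr; linarith) (mul_le_mul_of_nonneg_right ?_ (sq_nonneg _))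
    refine le_trans ?_ (key (2 + 4 * betaB ^ 2) 5 (by linarith) le_rfl)
    have : (1 : ℝ) ≤ (c.len : ℝ) ^ 5 := one_le_pow₀ (by linarith)
    linarith
  · refine gap_clause c m0 θ h (ee c) (fun k => √(nq c k)) (10 * (c.len : ℝ) ^ 3 * θ) he hsup hon
      (fun k hk => terr h hs hk) _ _ (by positivity) ?_ ?_ g hg
    · gcongr
      linarith
    · have hK : (c.K : ℝ) ≤ c.len := by exact_mod_cast h.K_le_len
      calc _ ≤ c.len * (10 * (c.len : ℝ) ^ 3 * θ) := by gcongr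
        _ = 10 * (c.len : ℝ) ^ 4 * θ := by ring
        _ ≤ _ := mul_le_mul_of_nonneg_right (key _ 4 (by linarith) (by omega)) b.le
  · refine (bump_mat h (ee c) eC _ he hsup hon (fun k hk x => ?_) hz (by positivity) k hk l hl l'
      hl').trans ?_
    · simpa using (bd_ee h hs hk).le x
    · calc _ = 2 * eC * (c.len : ℝ) ^ 2 * √θ := by ring
        _ ≤ _ := mul_le_mul_of_nonneg_right (key _ 2 (by linarith) (by omega)) (Real.sqrt_nonneg _)
  · calc _ = 4 * (c.len : ℝ) ^ 3 * θ := by rw [mul_pow, Real.sq_sqrt b.le]; ring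
      _ ≤ _ := mul_le_mul_of_nonneg_right (key _ 3 (by linarith) (by omega)) b.le
  · gcongr
    linarith

end Vale.Agent.P370Z
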