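import Vale.Agent.P370Z.CH.Orb

/-!
# P370, block CH: residuals and the tight-binding matrix of the chain
-/

namespace Vale.Agent.P370Z.CH

open MeasureTheory Finset ChD

noncomputable section

variable {c : ChD} {m0 : ℕ} {θ x : ℝ} {j k : ℕ}

/-! ### The residual -/

lemma dfi_mb (h : c.OK m0 θ) (j : ℕ) (x : ℝ) : deriv (fi c) x * (mu c j * bu c 1 j x) = 0 := by
  by_cases hj : j < c.K
  · have o := l_lt_r' h j
    rcases le_total x (c.l j + 1) with h1 | h1
    · rw [bu_left (by omega) h1]; ring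
    rcases le_total ((c.l j : ℝ) + 4) x with h2 | h2
    · rw [bu_right (by omega) h2]; ring
    rw [dfi_room h hj (by linarith) (by linarith), zero_mul]
  · rw [mu_of_not hj]; ring

lemma res_ee (h : c.OK m0 θ) (hs : Sm c θ) (hk : k < c.K) (x : ℝ) :
    |res1 c.u0 (ee c k) x| ≤ 2 * betaB * (c.len : ℝ) ^ 2 * θ := by
  have e := res1_mul (bd_fi h (k := 2) (by omega)) ((bd_XX h hs hk).of_le (k := 2) (by omega))
    (u0_spec c) (√(nq c k))⁻¹ x
  change res1 c.u0 (ee c k) x = _ at e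
  have hd : HasDerivAt (dX c k) (deriv (dT c k) x - deriv (dT c (k + 1)) x -
      mu c (k + 1) * bu c 2 (k + 1) x) x :=
    (((bd_dT h hk.le).hasDerivAt x).sub ((bd_dT (j := k + 1) h hk).hasDerivAt x)).sub
      ((hasDerivAt_levD (by omega) _ x).const_mul _)
  rw [deriv_XX, hd.deriv] at e
  have e2 : 2 * deriv (fi c) x * dX c k x + fi c x * (deriv (dT c k) x - deriv (dT c (k + 1)) x -
      mu c (k + 1) * bu c 2 (k + 1) x) = ze c 1 k x / (rs c k * fi c x) -
      ze c 1 (k + 1) x / (rs c (k + 1) * fi c x) - fi c x * (mu c (k + 1) * bu c 2 (k + 1) x) := by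
    rw [← res_Th, ← res_Th, dX]
    linear_combination (-2) * dfi_mb h (k + 1) x
  rw [e, e2, abs_mul, abs_neg, abs_of_nonneg (by positivity)]
  have a1 := abs_res_Th h hk.le x
  have a2 := abs_res_Th (j := k + 1) h hk x
  have b := h.θ_pos
  have b1 := betaB_pos
  have a3 : |fi c x * (mu c (k + 1) * bu c 2 (k + 1) x)| ≤ 1 * ((c.len : ℝ) ^ 2 * θ * (2 * betaB)) := by
    rw [abs_mul, abs_mul, abs_of_pos (fi_pos c x), abs_of_nonneg (mu_nonneg h _)]
    have := mu_nonneg h (k + 1)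
    gcongr
    · exact fi_le_one c x
    · exact mu_le h _
    · exact abs_lev_ind_le _ _ _ _
  have a4 := (abs_sub _ _).trans (add_le_add ((abs_sub _ _).trans (add_le_add a1 a2)) a3)
  have a5 : (√(nq c k))⁻¹ / 2 ≤ 1 / 2 := by linarith [inv_sqrt_le h hk]
  refine (mul_le_mul a5 a4 (abs_nonneg _) (by norm_num)).trans ?_
  have a6 : (4 : ℝ) ≤ (c.len : ℝ) ^ 2 := by nlinarith [len_ge c]
  nlinarith [mul_le_mul_of_nonneg_right a6 (mul_pos b1 b).le]

/-! ### Disjoint supports of the derivatives -/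

lemma cB_mono' (h : c.OK m0 θ) {i j : ℕ} (hij : i ≤ j) : (cB c i : ℝ) ≤ cB c j := by
  rcases hij.lt_or_eq with h1 | rfl
  · linarith [cB_lt_cA' h h1, cA_le_cB' c j]
  · exact le_rfl

lemma DD_lt (h : c.OK m0 θ) {i j : ℕ} (hij : i < j) (x : ℝ) : dT c i x * dT c j x = 0 := by
  rcases le_total x (cA c j - 1) with h1 | h1
  · rw [dT_left h1, mul_zero]
  · rw [dT_right (by linarith [cB_lt_cA' h hij]), zero_mul]

lemma DD (h : c.OK m0 θ) {i j : ℕ} (hij : i ≠ j) (x : ℝ) : dT c i x * dT c j x = 0 := by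
  rcases hij.lt_or_gt with h1 | h1
  · exact DD_lt h h1 x
  · rw [mul_comm]; exact DD_lt h h1 x

lemma DE (h : c.OK m0 θ) (i j : ℕ) (x : ℝ) : dT c i x * (mu c j * bu c 1 j x) = 0 := by
  rcases le_or_gt i j with h1 | h1
  · rcases le_total x (cB c j + 1) with h2 | h2
    · rw [mb_left (by omega) h2, mul_zero]
    · rw [dT_right (by linarith [cB_mono' h h1]), zero_mul]
  · rcases le_total ((cB c j : ℝ) + 4) x with h2 | h2
    · rw [mb_right (by omega) h2, mul_zero]
    · rw [dT_left (by linarith [cB_lt_cA' h h1]), zero_mul]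

lemma EE_lt (h : c.OK m0 θ) {i j : ℕ} (hij : i < j) (x : ℝ) :
    (mu c i * bu c 1 i x) * (mu c j * bu c 1 j x) = 0 := by
  rcases le_total ((cB c i : ℝ) + 4) x with h2 | h2
  · rw [mb_right (by omega) h2, zero_mul]
  · rw [mb_left (j := j) (by omega) (by linarith [cB_lt_cA' h hij, cA_le_cB' c j]), mul_zero]

lemma EE (h : c.OK m0 θ) {i j : ℕ} (hij : i ≠ j) (x : ℝ) :
    (mu c i * bu c 1 i x) * (mu c j * bu c 1 j x) = 0 := by
  rcases hij.lt_or_gt with h1 | h1
  · exact EE_lt h h1 x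
  · rw [mul_comm]; exact EE_lt h h1 x

/-- the energy of the correction -/
def ce (c : ChD) (j : ℕ) : ℝ := ∫ x, fi c x ^ 2 * ((mu c j * bu c 1 j x) * (mu c j * bu c 1 j x))

lemma abs_ce_le (h : c.OK m0 θ) (j : ℕ) : |ce c j| ≤ 4 * betaB ^ 2 * (c.len : ℝ) ^ 5 * θ ^ 2 := by
  have b := h.θ_pos
  have b1 := betaB_pos
  have := abs_integral_le (p := 0) (q := c.len) (δ := 1 * ((c.len : ℝ) ^ 2 * θ * (2 * betaB)) ^ 2)
    (f := fun x => fi c x ^ 2 * ((mu c j * bu c 1 j x) * (mu c j * bu c 1 j x)))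
    (Nat.cast_nonneg c.len) (fun x hx => by
      rw [mb_supp h (by omega) j x fun h' => hx ⟨by linarith [h'.1], by linarith [h'.2]⟩]; ring)
    fun x _ => by
      rw [← sq, abs_mul, abs_pow, abs_pow, abs_mul, abs_of_pos (fi_pos c x),
        abs_of_nonneg (mu_nonneg h _)]
      have := mu_nonneg h j
      gcongr
      · exact fi_sq_le_one c x
      · exact mu_le h _
      · exact abs_lev_ind_le _ _ _ _
  exact this.trans (le_of_eq (by ring))

lemma cond_integrable (hj : j ≤ c.K) : Integrable fun x => fi c x ^ 2 * (dT c j x * dT c j x) :=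
  integrable_of_icc (((fi_cont c).pow 2).mul ((dT_cont c j).mul (dT_cont c j))) fun x hx => by
    rw [dT_supp' hj x hx]; ring

lemma ce_integrable (h : c.OK m0 θ) (j : ℕ) :
    Integrable fun x => fi c x ^ 2 * ((mu c j * bu c 1 j x) * (mu c j * bu c 1 j x)) :=
  integrable_of_icc (((fi_cont c).pow 2).mul ((continuous_const.mul (bu_cont c (by omega) j)).mul
    (continuous_const.mul (bu_cont c (by omega) j)))) fun x hx => by
    rw [mb_supp h (by omega) j x hx]; ring

lemma form_diag (h : c.OK m0 θ) (hk : k < c.K) :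
    ∫ x, fi c x ^ 2 * (dX c k x * dX c k x) = cond c k + cond c (k + 1) + ce c (k + 1) := by
  unfold cond ce
  have i1 : Integrable fun x => fi c x ^ 2 * (dT c k x * dT c k x) +
      fi c x ^ 2 * (dT c (k + 1) x * dT c (k + 1) x) :=
    (cond_integrable hk.le).add (cond_integrable (j := k + 1) hk)
  rw [← integral_add (cond_integrable hk.le) (cond_integrable (j := k + 1) hk),
    ← integral_add i1 (ce_integrable h _)]
  refine integral_congr_ae (Filter.Eventually.of_forall fun x => ?_)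
  simp only [dX]
  linear_combination fi c x ^ 2 * (-2 * DD h (Nat.succ_ne_self k).symm x - 2 * DE h k (k + 1) x +
    2 * DE h (k + 1) (k + 1) x)

lemma form_next (h : c.OK m0 θ) (k : ℕ) :
    ∫ x, fi c x ^ 2 * (dX c k x * dX c (k + 1) x) = -cond c (k + 1) := by
  unfold cond
  rw [← integral_neg]
  refine integral_congr_ae (Filter.Eventually.of_forall fun x => ?_)
  simp only [dX]
  linear_combination fi c x ^ 2 * (DD h (show k ≠ k + 1 by omega) x -
    DD h (show k ≠ k + 1 + 1 by omega) x + DD h (show k + 1 ≠ k + 1 + 1 by omega) x -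
    DE h k (k + 1 + 1) x + DE h (k + 1) (k + 1 + 1) x - DE h (k + 1) (k + 1) x +
    DE h (k + 1 + 1) (k + 1) x + EE h (show k + 1 ≠ k + 1 + 1 by omega) x)

lemma form_far (h : c.OK m0 θ) {l : ℕ} (h1 : k ≠ l) (h2 : l ≠ k + 1) (h3 : k ≠ l + 1) :
    ∫ x, fi c x ^ 2 * (dX c k x * dX c l x) = 0 := by
  rw [← integral_zero ℝ ℝ (μ := volume)]
  refine integral_congr_ae (Filter.Eventually.of_forall fun x => ?_)
  simp only [dX]
  linear_combination fi c x ^ 2 * (DD h h1 x - DD h h3 x - DD h h2.symm x +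
    DD h (show k + 1 ≠ l + 1 by omega) x - DE h k (l + 1) x + DE h (k + 1) (l + 1) x -
    DE h l (k + 1) x + DE h (l + 1) (k + 1) x + EE h (show k + 1 ≠ l + 1 by omega) x)

/-! ### The matrix -/

lemma ratio {q R a m N d : ℝ} (hq : 0 ≤ q) (hm : 8 ≤ m) (hR : m ≤ R) (ha : m ≤ a)
    (hN1 : a - 2 ≤ N) (hN2 : N ≤ a + 4) (d1 : q * (R / (R + 5) ^ 2) ≤ d) (d2 : d ≤ q / R) :
    |d / (2 * N) - q / (2 * R * a)| ≤ 14 * (q / (2 * R * a)) / m := by
  have p1 : 0 < m := by linarith
  have p2 : 0 < R := by linarith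
  have p3 : 0 < a := by linarith
  have p4 : 0 < N := by linarith
  have p5 : 0 < a - 2 := by linarith
  set H := q / (2 * R * a) with hH
  have H0 : 0 ≤ H := by positivity
  have up : d / (2 * N) ≤ H * (1 + 14 / m) := by
    calc _ ≤ q / R / (2 * (a - 2)) := by gcongr
      _ = H * (a / (a - 2)) := by rw [hH]; field_simp
      _ ≤ _ := by
        gcongr
        rw [div_le_iff₀ p5]
        have : 2 ≤ 14 / m * (a - 2) := by
          rw [div_mul_eq_mul_div, le_div_iff₀ p1]; linarith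
        linarith
  have low : H * (1 - 14 / m) ≤ d / (2 * N) := by
    set u := 1 / m with hu
    have u0 : 0 ≤ u := by positivity
    have u1 : u ≤ 1 / 8 := one_div_le_one_div_of_le (by norm_num) hm
    have um : u * m = 1 := by rw [hu]; field_simp
    have r1 : 1 - 5 * u ≤ R / (R + 5) := by
      rw [le_div_iff₀ (by linarith)]; nlinarith
    have r2 : 1 - 4 * u ≤ a / (a + 4) := by
      rw [le_div_iff₀ (by linarith)]; nlinarith
    calc _ = H * (1 - 14 * u) := by rw [hu]; ring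
      _ ≤ H * ((1 - 5 * u) ^ 2 * (1 - 4 * u)) := by
        gcongr
        nlinarith [mul_nonneg u0 u0, mul_nonneg (mul_nonneg u0 u0) (sub_nonneg.mpr u1)]
      _ ≤ H * ((R / (R + 5)) ^ 2 * (a / (a + 4))) := by
        gcongr
        · linarith
        · linarith
      _ = q * (R / (R + 5) ^ 2) / (2 * (a + 4)) := by rw [hH]; field_simp
      _ ≤ _ := by
        gcongr
        exact le_trans (by positivity) d1
  rw [abs_le]
  have e : 14 * H / m = H * (14 / m) := by ring
  constructor <;> linarith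

lemma edge_err (h : c.OK m0 θ) {cm N : ℝ} (hcm : ∀ j, 0 < j → j < c.K → c.hop j ≤ cm)
    (hcm0 : 0 ≤ cm) (hN1 : (c.a : ℝ) - 2 ≤ N) (hN2 : N ≤ c.a + 4) (hj : j ≤ c.K) :
    |cond c j / (2 * N) - if 0 < j ∧ j < c.K then c.hop j else 0| ≤ 14 * cm / m0 + θ ^ 2 := by
  have hm : (8 : ℝ) ≤ m0 := by exact_mod_cast h.m0_ge
  have a := a_ge h
  split_ifs with h1
  · have := ratio (by positivity) hm (by exact_mod_cast h.R_ge j hj) (by exact_mod_cast h.a_ge)
      hN1 hN2 (cond_low h hj) (cond_up h hj)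
    refine this.trans (le_add_of_le_of_nonneg ?_ (sq_nonneg _))
    gcongr
    exact hcm j h1.1 h1.2
  · have h2 : (1 / 2 : ℝ) ^ c.s j ≤ θ := by
      rcases (by omega : j = 0 ∨ j = c.K) with rfl | rfl
      · exact h.small0
      · exact h.smallK
    have h3 : (1 / 4 : ℝ) ^ c.s j ≤ θ ^ 2 := by
      rw [← half_sq]; exact pow_le_pow_left₀ (by positivity) h2 2
    have h4 := cond_nonneg h hj
    rw [sub_zero, abs_of_nonneg (div_nonneg h4 (by linarith))]
    refine le_add_of_nonneg_of_le (by positivity) ((div_le_self h4 (by linarith)).trans ?_)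
    exact (cond_up h hj).trans ((div_le_self (by positivity) (by linarith [R_ge h hj])).trans h3)

lemma sqrt_mul_bounds {a u v : ℝ} (ha : 8 ≤ a) (u1 : a - 2 ≤ u) (u2 : u ≤ a + 4) (v1 : a - 2 ≤ v)
    (v2 : v ≤ a + 4) : a - 2 ≤ √u * √v ∧ √u * √v ≤ a + 4 := by
  constructor
  · rw [← Real.mul_self_sqrt (show 0 ≤ a - 2 by linarith)]
    gcongr
  · rw [← Real.mul_self_sqrt (show 0 ≤ a + 4 by linarith)]
    gcongr

lemma mat_ee (h : c.OK m0 θ) (hs : Sm c θ) {cm : ℝ} (hcm : ∀ j, 0 < j → j < c.K → c.hop j ≤ cm)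
    (hcm0 : 0 ≤ cm) (hk : k < c.K) {l : ℕ} (hl : l < c.K) :
    |(∫ x, ee c k x * res1 c.u0 (ee c l) x) - lapM c.K c.hop k l| ≤
      28 * cm / m0 + (2 + 4 * betaB ^ 2 * (c.len : ℝ) ^ 5) * θ ^ 2 := by
  have e := integral_res1 (bd_fi h (k := 2) (by omega))
    ((bd_XX h hs hk).of_le (k := 2) (by omega)) ((bd_XX h hs hl).of_le (k := 2) (by omega))
    (u0_spec c) (XX_supp h hk) (by rw [deriv_XX]; exact dX_supp h hk) (√(nq c k))⁻¹ (√(nq c l))⁻¹
  change ∫ x, ee c k x * res1 c.u0 (ee c l) x = _ at e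
  obtain ⟨hN1, hN2⟩ := sqrt_mul_bounds (a_ge h) (nq_low h hk) (nq_up h hs hk) (nq_low h hl)
    (nq_up h hs hl)
  set N := √(nq c k) * √(nq c l) with hN
  have a := a_ge h
  have e2 : ∀ t : ℝ, (√(nq c k))⁻¹ * (√(nq c l))⁻¹ / 2 * t = t / (2 * N) := fun t => by
    rw [← mul_inv, ← hN]; ring
  rw [e, e2, deriv_XX, deriv_XX, lapM]
  have p1 : 0 ≤ 14 * cm / m0 := by positivity
  have p2 : 0 ≤ 4 * betaB ^ 2 * (c.len : ℝ) ^ 5 * θ ^ 2 := by positivity
  have p3 : 28 * cm / m0 + (2 + 4 * betaB ^ 2 * (c.len : ℝ) ^ 5) * θ ^ 2 =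
      (14 * cm / m0 + θ ^ 2) + (14 * cm / m0 + θ ^ 2) + 4 * betaB ^ 2 * (c.len : ℝ) ^ 5 * θ ^ 2 := by
    ring
  have p4 := sq_nonneg θ
  rw [p3]
  by_cases h1 : k = l
  · subst h1
    rw [if_pos rfl, form_diag h hk]
    have a1 := edge_err h hcm hcm0 hN1 hN2 hk.le
    have a2 := edge_err (j := k + 1) h hcm hcm0 hN1 hN2 hk
    have a3 : |ce c (k + 1) / (2 * N)| ≤ 4 * betaB ^ 2 * (c.len : ℝ) ^ 5 * θ ^ 2 := by
      rw [abs_div, abs_of_pos (show 0 < 2 * N by linarith)]
      exact (div_le_self (abs_nonneg _) (by linarith)).trans (abs_ce_le h _)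
    simp only [hk, and_true] at a1
    simp only [Nat.succ_pos, true_and] at a2
    refine le_trans (le_of_eq ?_) ((abs_add_le _ _).trans
      (add_le_add ((abs_add_le _ _).trans (add_le_add a1 a2)) a3))
    congr 1
    ring
  rw [if_neg h1]
  by_cases h2 : l = k + 1
  · subst h2
    rw [if_pos rfl, form_next h]
    have a2 := edge_err (j := k + 1) h hcm hcm0 hN1 hN2 hk
    rw [if_pos ⟨Nat.succ_pos _, hl⟩, ← abs_neg] at a2
    refine le_trans (le_of_eq ?_) (a2.trans (by linarith))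
    congr 1
    ring
  rw [if_neg h2]
  by_cases h3 : k = l + 1
  · subst h3
    rw [if_pos rfl]
    simp only [mul_comm (dX c (l + 1) _)]
    rw [form_next h]
    have a2 := edge_err (j := l + 1) h hcm hcm0 hN1 hN2 hl
    rw [if_pos ⟨Nat.succ_pos _, hk⟩, ← abs_neg] at a2
    refine le_trans (le_of_eq ?_) (a2.trans (by linarith))
    congr 1
    ring
  rw [if_neg h3, form_far h h1 h2 h3, zero_div, sub_zero, abs_zero]
  linarith

end

end Vale.Agent.P370Z.CH
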