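import Vale.Agent.P370Z.CH.Theta

/-!
# P370, block CH: the orthonormal orbitals of the chain
-/

namespace Vale.Agent.P370Z.CH

open MeasureTheory Finset ChD

noncomputable section

/-- the `n`-th derivative of the correction bump in room `j` -/
def bu (c : ChD) (n j : ℕ) : ℝ → ℝ := levD n (ind (c.l j + 2) (c.l j + 3))

/-- the overlap through corridor `j` -/
def ov (c : ChD) (j : ℕ) : ℝ := ∫ x, fi c x ^ 2 * (Th c j x * (1 - Th c j x))

/-- the size of the correction -/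
def mu (c : ChD) (j : ℕ) : ℝ := if j < c.K then ov c j / ∫ x, fi c x ^ 2 * bu c 0 j x else 0

/-- the profile of orbital `k` -/
def XX (c : ChD) (k : ℕ) (x : ℝ) : ℝ := Th c k x - Th c (k + 1) x - mu c (k + 1) * bu c 0 (k + 1) x

/-- its derivative -/
def dX (c : ChD) (k : ℕ) (x : ℝ) : ℝ := dT c k x - dT c (k + 1) x - mu c (k + 1) * bu c 1 (k + 1) x

/-- the square of the norm -/
def nq (c : ChD) (k : ℕ) : ℝ := ∫ x, fi c x ^ 2 * (XX c k x * XX c k x)

/-- the orbitals -/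
def ee (c : ChD) (k : ℕ) (x : ℝ) : ℝ := (√(nq c k))⁻¹ * (fi c x * XX c k x)

variable {c : ChD} {m0 : ℕ} {θ x : ℝ} {j k n : ℕ}

/-! ### The correction -/

lemma len_ge (c : ChD) : (2 : ℝ) ≤ c.len := by
  have : 2 ≤ c.len := by rw [len_eq]; omega
  exact_mod_cast this

lemma bu_cont (c : ChD) (hn : n ≤ 8) (j : ℕ) : Continuous (bu c n j) := continuous_levD hn _

lemma bu_left (hn : n ≤ 8) (hx : x ≤ c.l j + 1) : bu c n j x = 0 :=
  lev_ind_left hn (by push_cast; linarith)

lemma bu_right (hn : n ≤ 8) (hx : (c.l j : ℝ) + 4 ≤ x) : bu c n j x = 0 :=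
  lev_ind_right hn (by push_cast; linarith)

lemma bu_nonneg (c : ChD) (j : ℕ) (x : ℝ) : 0 ≤ bu c 0 j x := lev_ind_nonneg _ _ x

lemma bu_le_one (c : ChD) (j : ℕ) (x : ℝ) : bu c 0 j x ≤ 1 := lev_ind_le_one _ _ x

lemma mu_of_not (hj : ¬ j < c.K) : mu c j = 0 := if_neg hj

lemma cB_lt' (hk : k < c.K) : (cB c k : ℝ) = c.l k := by rw [cB_lt hk]; push_cast; rfl

lemma mb_left (hn : n ≤ 8) (hx : x ≤ cB c j + 1) : mu c j * bu c n j x = 0 := by
  by_cases hj : j < c.K
  · rw [bu_left hn (by rwa [cB_lt' hj] at hx), mul_zero]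
  · rw [mu_of_not hj, zero_mul]

lemma mb_right (hn : n ≤ 8) (hx : (cB c j : ℝ) + 4 ≤ x) : mu c j * bu c n j x = 0 := by
  by_cases hj : j < c.K
  · rw [bu_right hn (by rwa [cB_lt' hj] at hx), mul_zero]
  · rw [mu_of_not hj, zero_mul]

lemma l_lt_r' (h : c.OK m0 θ) (k : ℕ) : (c.l k : ℝ) + 8 ≤ c.r k := by exact_mod_cast h.l_lt_r k

lemma r_le_len' (hk : k < c.K) : (c.r k : ℝ) + 2 ≤ c.len := by exact_mod_cast c.r_le_len hk

lemma mb_end (h : c.OK m0 θ) (hn : n ≤ 8) (hx : (c.len : ℝ) - 1 ≤ x) :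
    mu c j * bu c n j x = 0 := by
  by_cases hj : j < c.K
  · rw [bu_right hn (by linarith [l_lt_r' h j, r_le_len' hj]), mul_zero]
  · rw [mu_of_not hj, zero_mul]

lemma fb_integrable (c : ChD) (j : ℕ) : Integrable fun x => fi c x ^ 2 * bu c 0 j x :=
  integrable_of_icc (p := c.l j + 1) (q := c.l j + 4)
    (((fi_cont c).pow 2).mul (bu_cont c (by omega) j)) fun x hx => by
      rw [Set.mem_Icc, not_and_or, not_le, not_le] at hx
      rw [hx.elim (fun h => bu_left (by omega) h.le) fun h => bu_right (by omega) h.le, mul_zero]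

lemma fb_low (h : c.OK m0 θ) (hj : j < c.K) : (1 / 4) ^ c.ρ j ≤ ∫ x, fi c x ^ 2 * bu c 0 j x := by
  have := le_integral (p := c.l j + 2) (q := c.l j + 3) (δ := (1 / 4) ^ c.ρ j)
    (((fi_cont c).pow 2).mul (bu_cont c (by omega) j)) (fb_integrable c j)
    (fun x => mul_nonneg (sq_nonneg _) (bu_nonneg c j x)) (by linarith) fun x hx => by
      have e : bu c 0 j x = 1 := lev_ind_one (by push_cast; exact hx.1) (by push_cast; exact hx.2)
      have := l_lt_r' h j
      simp only [Pi.mul_apply, Pi.pow_apply]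
      rw [e, mul_one, fi_room h hj (by linarith [hx.1]) (by linarith [hx.2]), half_sq]
  exact le_trans (le_of_eq (by ring)) this

lemma ov_supp (h : c.OK m0 θ) (hj : j ≤ c.K) (x : ℝ) (hx : x ∉ Set.Icc (0 : ℝ) c.len) :
    fi c x ^ 2 * (Th c j x * (1 - Th c j x)) = 0 := by
  rw [Set.mem_Icc, not_and_or, not_le, not_le] at hx
  rcases hx with hx | hx
  · rw [Th_left (by linarith [one_le_cA c j])]; ring
  · rw [Th_right h hj (by linarith [cB_le_len' hj])]; ring

lemma ov_nonneg (h : c.OK m0 θ) (hj : j ≤ c.K) : 0 ≤ ov c j :=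
  integral_nonneg fun x => mul_nonneg (sq_nonneg _)
    (mul_nonneg (Th_nonneg h hj x) (sub_nonneg.mpr (Th_le_one h hj x)))

lemma ov_le (h : c.OK m0 θ) (hj : j ≤ c.K) : ov c j ≤ c.len * (c.len * (1 / 4) ^ c.s j) := by
  have := abs_integral_le (δ := c.len * (1 / 4) ^ c.s j) (Nat.cast_nonneg c.len) (ov_supp h hj)
    fun x _ => by
      have a0 := Th_nonneg h hj x
      have a1 := Th_le_one h hj x
      have a2 := sq_nonneg (fi c x)
      rw [abs_of_nonneg (mul_nonneg a2 (mul_nonneg a0 (sub_nonneg.mpr a1)))]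
      rcases le_total x (c.pr j) with hx | hx
      · refine le_trans ?_ (tail_left h hj hx)
        exact mul_le_mul_of_nonneg_left (by nlinarith) a2
      · refine le_trans ?_ (tail_right h hj ((pl_le_pr' c j).trans hx))
        exact mul_le_mul_of_nonneg_left (by nlinarith) a2
  rw [sub_zero] at this
  exact (le_abs_self _).trans this

lemma mu_nonneg (h : c.OK m0 θ) (j : ℕ) : 0 ≤ mu c j := by
  unfold mu
  split_ifs with hj
  · exact div_nonneg (ov_nonneg h hj.le) (le_trans (by positivity) (fb_low h hj))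
  · exact le_rfl

lemma mu_le (h : c.OK m0 θ) (j : ℕ) : mu c j ≤ (c.len : ℝ) ^ 2 * θ := by
  have b := h.θ_pos
  unfold mu
  split_ifs with hj
  · calc _ ≤ (c.len : ℝ) * (c.len * (1 / 4) ^ c.s j) / (1 / 4) ^ c.ρ j := by
          gcongr
          · exact ov_le h hj.le
          · exact fb_low h hj
      _ = (c.len : ℝ) ^ 2 * (4 ^ c.ρ j * (1 / 4) ^ c.s j) := by
          rw [one_div_pow (4 : ℝ) (c.ρ j)]; field_simp
      _ ≤ _ := by
          gcongr
          exact h.small j hj.le j hj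
  · positivity

lemma mu_spec (h : c.OK m0 θ) (hj : j < c.K) : mu c j * ∫ x, fi c x ^ 2 * bu c 0 j x = ov c j := by
  rw [mu, if_pos hj]
  exact div_mul_cancel₀ _ (lt_of_lt_of_le (by positivity) (fb_low h hj)).ne'

/-! ### The profiles -/

lemma cB_lt_cA' (h : c.OK m0 θ) {i j : ℕ} (hij : i < j) : (cB c i : ℝ) + 8 ≤ cA c j := by
  exact_mod_cast cB_lt_cA h hij

lemma cA_le_cB' (c : ChD) (j : ℕ) : (cA c j : ℝ) ≤ cB c j := by exact_mod_cast cA_le_cB c j

lemma cA_le_pl' (c : ChD) (j : ℕ) : (cA c j : ℝ) ≤ c.pl j := by exact_mod_cast cA_le_pl c j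

lemma pr_le_cB' (c : ChD) (j : ℕ) : (c.pr j : ℝ) ≤ cB c j := by exact_mod_cast pr_le_cB c j

lemma XX_cont (c : ChD) (k : ℕ) : Continuous (XX c k) :=
  ((Th_cont c k).sub (Th_cont c _)).sub (continuous_const.mul (bu_cont c (by omega) _))

lemma dX_cont (c : ChD) (k : ℕ) : Continuous (dX c k) :=
  ((dT_cont c k).sub (dT_cont c _)).sub (continuous_const.mul (bu_cont c (by omega) _))

lemma XX_hasDerivAt (c : ChD) (k : ℕ) (x : ℝ) : HasDerivAt (XX c k) (dX c k x) x :=
  ((Th_hasDerivAt c k x).sub (Th_hasDerivAt c _ x)).sub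
    ((hasDerivAt_levD (by omega) _ x).const_mul _)

lemma deriv_XX (c : ChD) (k : ℕ) : deriv (XX c k) = dX c k :=
  funext fun x => (XX_hasDerivAt c k x).deriv

/-- left of the next corridor -/
lemma XX_of_le (hx : x ≤ cA c (k + 1) - 1) : XX c k x = Th c k x := by
  rw [XX, Th_left hx, mb_left (by omega) (by linarith [cA_le_cB' c (k + 1)])]; ring

/-- right of its own corridor -/
lemma XX_of_ge (h : c.OK m0 θ) (hk : k < c.K) (hx : (cB c k : ℝ) + 1 ≤ x) :
    XX c k x = 1 - Th c (k + 1) x - mu c (k + 1) * bu c 0 (k + 1) x := by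
  rw [XX, Th_right h hk.le hx]

lemma XX_left (h : c.OK m0 θ) (hx : x ≤ cA c k - 1) : XX c k x = 0 := by
  rw [XX_of_le (by linarith [cA_le_cB' c k, cB_lt_cA' h (Nat.lt_succ_self k)]), Th_left hx]

lemma XX_right (h : c.OK m0 θ) (hk : k < c.K) (hx : (cB c (k + 1) : ℝ) + 4 ≤ x) :
    XX c k x = 0 := by
  rw [XX_of_ge h hk (by linarith [cA_le_cB' c (k + 1), cB_lt_cA' h (Nat.lt_succ_self k)]),
    Th_right h hk (by linarith), mb_right (by omega) hx]
  ring

lemma XX_supp (h : c.OK m0 θ) (hk : k < c.K) (x : ℝ) (hx : x ∉ Set.Icc (1 : ℝ) (c.len - 1)) :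
    XX c k x = 0 := by
  rw [Set.mem_Icc, not_and_or, not_le, not_le] at hx
  rcases hx with hx | hx
  · exact XX_left h (by linarith [one_le_cA c k])
  · rw [XX, Th_right h hk.le (by linarith [cB_le_len' hk.le]),
      Th_right h hk (by linarith [cB_le_len' (j := k + 1) hk]), mb_end h (by omega) hx.le]
    ring

lemma dT_supp' (hj : j ≤ c.K) (x : ℝ) (hx : x ∉ Set.Icc (1 : ℝ) (c.len - 1)) : dT c j x = 0 :=
  dT_supp x fun h => hx ⟨(one_le_cA c j).trans h.1, by linarith [h.2, cB_le_len' hj]⟩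

lemma mb_supp (h : c.OK m0 θ) (hn : n ≤ 8) (j : ℕ) (x : ℝ) (hx : x ∉ Set.Icc (1 : ℝ) (c.len - 1)) :
    mu c j * bu c n j x = 0 := by
  rw [Set.mem_Icc, not_and_or, not_le, not_le] at hx
  rcases hx with hx | hx
  · exact mb_left hn (by linarith [one_le_cA c j, cA_le_cB' c j])
  · exact mb_end h hn hx.le

lemma dX_supp (h : c.OK m0 θ) (hk : k < c.K) (x : ℝ) (hx : x ∉ Set.Icc (1 : ℝ) (c.len - 1)) :
    dX c k x = 0 := by
  rw [dX, dT_supp' hk.le x hx, dT_supp' (j := k + 1) hk x hx, mb_supp h (by omega) _ x hx]; ring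

lemma XX_zone (hx : x ≤ c.pl (k + 1)) : XX c k x = Th c k x - Th c (k + 1) x := by
  rw [XX, mb_left (by omega) (by linarith [pl_le_pr' c (k + 1), pr_le_cB' c (k + 1)]), sub_zero]

lemma XX_sq_zone (h : c.OK m0 θ) (hk : k < c.K) (hx : x ≤ c.pl (k + 1)) :
    XX c k x * XX c k x ≤ 1 := by
  rw [XX_zone hx]
  nlinarith [Th_nonneg h hk.le x, Th_le_one h hk.le x, Th_nonneg (j := k + 1) h hk x,
    Th_le_one (j := k + 1) h hk x]

lemma XX_room (h : c.OK m0 θ) (hk : k < c.K) (h0 : (c.l k : ℝ) + 1 ≤ x) (h1 : x ≤ c.r k - 1) :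
    XX c k x = 1 := by
  rw [XX_of_le (by rw [cA_succ]; exact_mod_cast h1), Th_right h hk.le (by rwa [cB_lt' hk])]

/-- the smallness condition -/
def Sm (c : ChD) (θ : ℝ) : Prop := 4 * (c.len : ℝ) ^ 3 * θ ≤ 1

lemma mu_le_one (h : c.OK m0 θ) (hs : Sm c θ) (j : ℕ) : mu c j ≤ 1 := by
  have a := len_ge c
  have b := h.θ_pos
  refine (mu_le h j).trans (le_trans ?_ hs)
  have : 0 ≤ (c.len : ℝ) ^ 2 * θ := by positivity
  nlinarith

lemma tail_left' (h : c.OK m0 θ) (hj : j ≤ c.K) (hx : x ≤ c.pr j) :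
    fi c x ^ 2 * Th c j x ^ 2 ≤ c.len * θ := by
  have a0 := Th_nonneg h hj x
  have a1 := Th_le_one h hj x
  calc _ ≤ fi c x ^ 2 * Th c j x := mul_le_mul_of_nonneg_left (by nlinarith) (sq_nonneg _)
    _ ≤ _ := tail_left h hj hx
    _ ≤ _ := mul_le_mul_of_nonneg_left (quarter_le h hj) (Nat.cast_nonneg _)

lemma tail_right' (h : c.OK m0 θ) (hj : j ≤ c.K) (hx : (c.pl j : ℝ) ≤ x) :
    fi c x ^ 2 * (1 - Th c j x) ^ 2 ≤ c.len * θ := by
  have a0 := Th_nonneg h hj x
  have a1 := Th_le_one h hj x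
  calc _ ≤ fi c x ^ 2 * (1 - Th c j x) := mul_le_mul_of_nonneg_left (by nlinarith) (sq_nonneg _)
    _ ≤ _ := tail_right h hj hx
    _ ≤ _ := mul_le_mul_of_nonneg_left (quarter_le h hj) (Nat.cast_nonneg _)

/-- outside of the zone the orbital is small -/
lemma XX_out (h : c.OK m0 θ) (hs : Sm c θ) (hk : k < c.K)
    (hx : x ≤ c.pr k ∨ (c.pl (k + 1) : ℝ) ≤ x) :
    fi c x ^ 2 * (XX c k x * XX c k x) ≤ 4 * (c.len : ℝ) ^ 2 * θ := by
  have a := len_ge c
  have b := h.θ_pos
  have o1 := cB_lt_cA' h (Nat.lt_succ_self k)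
  have e : c.len * θ ≤ (c.len : ℝ) ^ 2 * θ := mul_le_mul_of_nonneg_right (by nlinarith) b.le
  have e0 : 0 ≤ c.len * θ := by positivity
  rcases hx with hx | hx
  · rw [XX_of_le (by linarith [pr_le_cB' c k]), ← sq (Th c k x)]
    linarith [tail_left' h hk.le hx]
  · rw [XX_of_ge h hk (by linarith [cA_le_pl' c (k + 1)])]
    have t := tail_right' (j := k + 1) h hk hx
    have m0 := mu_nonneg h (k + 1)
    have m1 := mu_le_one h hs (k + 1)
    have m2 := mu_le h (k + 1)
    have b0 := bu_nonneg c (k + 1) x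
    have b1 := bu_le_one c (k + 1) x
    have f1 := fi_sq_le_one c x
    have f0 := sq_nonneg (fi c x)
    set v := mu c (k + 1) * bu c 0 (k + 1) x with hv
    have v0 : 0 ≤ v := mul_nonneg m0 b0
    have v1 : v ≤ mu c (k + 1) := mul_le_of_le_one_right m0 b1
    have v2 : fi c x ^ 2 * v ^ 2 ≤ (c.len : ℝ) ^ 2 * θ := by
      have : v ^ 2 ≤ mu c (k + 1) := by nlinarith
      nlinarith
    nlinarith [mul_nonneg f0 (sq_nonneg (1 - Th c (k + 1) x + v))]

/-- the constant in the bounds for the derivatives of the profiles -/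
def xC : ℝ := thC + thC + 2 * betaB

lemma bd_XX (h : c.OK m0 θ) (hs : Sm c θ) (hk : k < c.K) : Bd 4 xC (fun _ => 1) (XX c k) := by
  have h1 := (bd_levD_bounded (n := 0) (k := 4) (by omega)
    (abs_ind_le (c.l (k + 1) + 2) (c.l (k + 1) + 3))).const_mul (mu c (k + 1))
  refine ((bd_Th h hk.le).sub (bd_Th (j := k + 1) h hk)).sub (h1.monoC ?_ fun _ => zero_le_one)
  rw [abs_of_nonneg (mu_nonneg h _), mul_one]
  exact mul_le_of_le_one_left (by have := betaB_pos; positivity) (mu_le_one h hs _)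

/-! ### Norms and orthogonality -/

lemma fXX_integrable (h : c.OK m0 θ) (hk : k < c.K) (l : ℕ) :
    Integrable fun x => fi c x ^ 2 * (XX c k x * XX c l x) :=
  integrable_of_icc (((fi_cont c).pow 2).mul ((XX_cont c k).mul (XX_cont c l))) fun x hx => by
    rw [XX_supp h hk x hx]; ring

lemma a_ge (h : c.OK m0 θ) : (8 : ℝ) ≤ c.a := by exact_mod_cast h.a_ge8

lemma nq_low (h : c.OK m0 θ) (hk : k < c.K) : (c.a : ℝ) - 2 ≤ nq c k := by
  have o := l_lt_r' h k
  have := le_integral (p := c.l k + 1) (q := c.r k - 1) (δ := (1 / 4) ^ c.ρ k)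
    (((fi_cont c).pow 2).mul ((XX_cont c k).mul (XX_cont c k))) (fXX_integrable h hk k)
    (fun x => mul_nonneg (sq_nonneg _) (mul_self_nonneg _)) (by linarith) fun x hx => by
      simp only [Pi.mul_apply, Pi.pow_apply]
      rw [XX_room h hk hx.1 hx.2, fi_room h hk (by linarith [hx.1]) (by linarith [hx.2]), half_sq]
      simp
  refine le_trans ?_ this
  have e : ((c.r k : ℝ) - c.l k) * (1 / 4) ^ c.ρ k = c.a := by
    rw [r_eq]; push_cast
    rw [add_sub_cancel_left, mul_assoc, ← mul_pow]; norm_num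
  have b2 : (1 / 4 : ℝ) ^ c.ρ k ≤ 1 := pow_le_one₀ (by norm_num) (by norm_num)
  nlinarith

lemma nq_ge (h : c.OK m0 θ) (hk : k < c.K) : 1 ≤ nq c k := by
  linarith [nq_low h hk, a_ge h]

lemma pr_le_pl' (c : ChD) (k : ℕ) : (c.pr k : ℝ) ≤ c.pl (k + 1) := by
  exact_mod_cast (c.pr_le_l k).trans ((c.l_le_r k).trans (c.r_le_pl k))

lemma pl_le_len' (hj : j ≤ c.K) : (c.pl j : ℝ) + 2 ≤ c.len := by exact_mod_cast c.pl_le_len hj

lemma nq_up (h : c.OK m0 θ) (hs : Sm c θ) (hk : k < c.K) : nq c k ≤ c.a + 4 := by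
  have hc : Continuous fun x => fi c x ^ 2 * (XX c k x * XX c k x) :=
    ((fi_cont c).pow 2).mul ((XX_cont c k).mul (XX_cont c k))
  have o1 := pr_le_pl' c k
  have o2 := pl_le_len' (j := k + 1) hk
  have o3 : (0 : ℝ) ≤ c.pr k := Nat.cast_nonneg _
  have b := h.θ_pos
  rw [nq, integral_eq_interval (p := 0) (q := c.len) (Nat.cast_nonneg _) fun x hx => by
    rw [XX_supp h hk x fun h' => hx ⟨by linarith [h'.1], by linarith [h'.2]⟩]; ring,
    split3 hc _ (c.pr k) (c.pl (k + 1))]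
  have a1 := interval_le hc o3 fun x hx => XX_out h hs hk (Or.inl hx.2)
  have a2 := interval_le (q := c.len) hc (by linarith) fun x hx => XX_out h hs hk (Or.inr hx.1)
  have a3 := intervalIntegral.integral_mono_on (μ := volume) o1 (hc.intervalIntegrable _ _)
    (((fi_cont c).pow 2).intervalIntegrable _ _) fun x hx =>
      mul_le_of_le_one_right (sq_nonneg _) (XX_sq_zone h hk hx.2)
  have a4 := int_fi_zone h hk
  have a5 : 0 ≤ 4 * (c.len : ℝ) ^ 2 * θ := by positivity
  have a6 : (c.len : ℝ) * (4 * (c.len : ℝ) ^ 2 * θ) ≤ 1 := le_trans (le_of_eq (by ring)) hs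
  simp only [Pi.pow_apply] at a3
  nlinarith

lemma XX_mul_next (h : c.OK m0 θ) (hk : k + 1 < c.K) (x : ℝ) :
    XX c k x * XX c (k + 1) x =
      Th c (k + 1) x * (1 - Th c (k + 1) x) - mu c (k + 1) * bu c 0 (k + 1) x := by
  have o1 := cB_lt_cA' h (Nat.lt_succ_self k)
  have o2 := cB_lt_cA' h (Nat.lt_succ_self (k + 1))
  have o3 := cA_le_cB' c (k + 1)
  rcases le_total x (cA c (k + 1) - 1) with h1 | h1
  · rw [XX_left h h1, Th_left h1, mb_left (by omega) (by linarith)]; ring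
  rcases le_total ((cB c (k + 1) : ℝ) + 4) x with h2 | h2
  · rw [XX_right h (by omega) h2, Th_right h hk.le (by linarith), mb_right (by omega) h2]; ring
  rw [XX_of_ge h (by omega) (by linarith), XX_of_le (k := k + 1) (by linarith)]
  rcases le_total x (cB c (k + 1) + 1) with h3 | h3
  · rw [mb_left (by omega) h3]; ring
  · rw [Th_right h hk.le h3]; ring

lemma orth (h : c.OK m0 θ) {l : ℕ} (hkl : k < l) (hl : l < c.K) :
    ∫ x, fi c x ^ 2 * (XX c k x * XX c l x) = 0 := by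
  rcases (Nat.succ_le_of_lt hkl).lt_or_eq with h1 | h1
  · have : ∀ x, fi c x ^ 2 * (XX c k x * XX c l x) = 0 := fun x => by
      have o := cB_lt_cA' h h1
      rcases le_total x (cA c l - 1) with h2 | h2
      · rw [XX_left h h2]; ring
      · rw [XX_right h (by omega) (by linarith)]; ring
    simp [this]
  · subst h1
    have e : ∀ x, fi c x ^ 2 * (XX c k x * XX c (k + 1) x) =
        fi c x ^ 2 * (Th c (k + 1) x * (1 - Th c (k + 1) x)) -
          mu c (k + 1) * (fi c x ^ 2 * bu c 0 (k + 1) x) := fun x => by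
      rw [XX_mul_next h hl]; ring
    have i1 : Integrable fun x => fi c x ^ 2 * (Th c (k + 1) x * (1 - Th c (k + 1) x)) :=
      integrable_of_icc (((fi_cont c).pow 2).mul ((Th_cont c _).mul
        (continuous_const.sub (Th_cont c _)))) (ov_supp h hl.le)
    simp only [Nat.succ_eq_add_one, e]
    rw [integral_sub i1 ((fb_integrable c _).const_mul _), integral_const_mul, mu_spec h hl]
    exact sub_self _

lemma ee_on (h : c.OK m0 θ) (hk : k < c.K) {l : ℕ} (hl : l < c.K) :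
    ∫ x, ee c k x * ee c l x = idm k l := by
  have e : ∀ x, ee c k x * ee c l x =
      (√(nq c k))⁻¹ * (√(nq c l))⁻¹ * (fi c x ^ 2 * (XX c k x * XX c l x)) := fun x => by
    unfold ee; ring
  simp only [e]
  rw [integral_const_mul, idm]
  rcases lt_trichotomy k l with h1 | rfl | h1
  · rw [orth h h1 hl, if_neg h1.ne, mul_zero]
  · have := nq_ge h hk
    rw [if_pos rfl, ← mul_inv, Real.mul_self_sqrt (by linarith)]
    exact inv_mul_cancel₀ (by linarith)
  · simp only [mul_comm (XX c k _)]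
    rw [orth h h1 hk, if_neg h1.ne', mul_zero]

lemma inv_sqrt_le (h : c.OK m0 θ) (hk : k < c.K) : (√(nq c k))⁻¹ ≤ 1 :=
  inv_le_one_of_one_le₀ (Real.one_le_sqrt.mpr (nq_ge h hk))

lemma ee_sq (h : c.OK m0 θ) (hk : k < c.K) (x : ℝ) :
    ee c k x ^ 2 = fi c x ^ 2 * (XX c k x * XX c k x) / nq c k := by
  have := nq_ge h hk
  rw [ee, mul_pow, inv_pow, Real.sq_sqrt (by linarith)]; ring

lemma ee_cont (c : ChD) (k : ℕ) : Continuous (ee c k) :=
  continuous_const.mul ((fi_cont c).mul (XX_cont c k))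

lemma ee_supp (h : c.OK m0 θ) (hk : k < c.K) (x : ℝ) (hx : ee c k x ≠ 0) :
    1 ≤ x ∧ x ≤ (c.len : ℝ) - 1 := by
  by_contra h1
  exact hx (by rw [ee, XX_supp h hk x h1]; ring)

/-- the constant in the bounds for the derivatives of the orbitals -/
def eC : ℝ := 2 ^ 4 * betaB * xC

lemma eC_pos : 0 < eC := by
  have := betaB_pos
  have := one_le_thC
  unfold eC xC; positivity

lemma bd_ee (h : c.OK m0 θ) (hs : Sm c θ) (hk : k < c.K) : Bd 4 eC (fun _ => 1) (ee c k) := by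
  refine (((bd_fi h (by omega)).mul (bd_XX h hs hk)).const_mul (√(nq c k))⁻¹).mono fun x => ?_
  rw [abs_of_nonneg (by positivity), mul_one, mul_one, mul_one]
  exact mul_le_of_le_one_left eC_pos.le (inv_sqrt_le h hk)

lemma ee_out (h : c.OK m0 θ) (hs : Sm c θ) (hk : k < c.K) (x : ℝ)
    (hx : x ∉ Set.Icc (c.pr k : ℝ) (c.pl (k + 1))) : |ee c k x| ≤ 2 * c.len * √θ := by
  rw [Set.mem_Icc, not_and_or, not_le, not_le] at hx
  have h1 := XX_out h hs hk (hx.imp le_of_lt le_of_lt)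
  have b := h.θ_pos
  refine abs_le_of_sq_le_sq' ?_ (by positivity) |> abs_le.mpr
  rw [ee_sq h hk, mul_pow, Real.sq_sqrt b.le]
  refine (div_le_self (mul_nonneg (sq_nonneg _) (mul_self_nonneg _)) (nq_ge h hk)).trans ?_
  linarith

lemma ee_sup (h : c.OK m0 θ) (hk : k < c.K) (x : ℝ)
    (hx : x ∈ Set.Icc (c.pr k : ℝ) (c.pl (k + 1))) : ee c k x ^ 2 ≤ 2 * (1 / 4) ^ c.ρ k / c.a := by
  have a := a_ge h
  have h1 : fi c x ^ 2 ≤ (1 / 4) ^ c.ρ k :=
    fi_sq_le (P := c.pr k) (Q := c.pl (k + 1)) (fun i a b => h.rho_le_sig hk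
      (Or.inr (by have := c.pl_le_pr k; omega)) (Or.inr (by have := c.pl_le_pr (k + 1); omega)))
      (by exact_mod_cast hx.1) (by exact_mod_cast hx.2)
  have h2 := (mul_le_of_le_one_right (sq_nonneg _) (XX_sq_zone h hk hx.2)).trans h1
  rw [ee_sq h hk]
  calc _ ≤ (1 / 4) ^ c.ρ k / ((c.a : ℝ) / 2) := by
        gcongr
        linarith [nq_low h hk]
    _ = _ := by field_simp

/-- the distance from `φ` restricted to the territory -/
lemma terr (h : c.OK m0 θ) (hs : Sm c θ) (hk : k < c.K) :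
    ∫ x in Set.Icc (0 : ℝ) c.len,
      ((Set.Icc (if k = 0 then (0 : ℝ) else c.pl k)
          (if k + 1 = c.K then (c.len : ℝ) else c.pl (k + 1))).indicator (levD 0 c.phi) x -
        √(nq c k) * ee c k x) ^ 2 ≤ 10 * (c.len : ℝ) ^ 3 * θ := by
  have a := len_ge c
  have b := h.θ_pos
  have n1 := nq_ge h hk
  have key : ∀ x ∈ Set.Icc (0 : ℝ) c.len,
      ‖((Set.Icc (if k = 0 then (0 : ℝ) else c.pl k)
          (if k + 1 = c.K then (c.len : ℝ) else c.pl (k + 1))).indicator (levD 0 c.phi) x -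
        √(nq c k) * ee c k x) ^ 2‖ ≤ 10 * (c.len : ℝ) ^ 2 * θ := by
    intro x hx
    have e : √(nq c k) * ee c k x = fi c x * XX c k x := by
      rw [ee, ← mul_assoc, mul_inv_cancel₀ (Real.sqrt_pos.mpr (by linarith)).ne', one_mul]
    rw [Real.norm_eq_abs, abs_of_nonneg (sq_nonneg _), e]
    have e1 : c.len * θ ≤ (c.len : ℝ) ^ 2 * θ := mul_le_mul_of_nonneg_right (by nlinarith) b.le
    have e2 : θ ≤ c.len * θ := le_mul_of_one_le_left b.le (by linarith)
    have o1 := pl_le_pr' c k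
    have o2 := pl_le_pr' c (k + 1)
    by_cases hT : x ∈ Set.Icc (if k = 0 then (0 : ℝ) else c.pl k)
        (if k + 1 = c.K then (c.len : ℝ) else c.pl (k + 1))
    · rw [Set.indicator_of_mem hT]
      change (fi c x - fi c x * XX c k x) ^ 2 ≤ _
      have out : fi c x ^ 2 ≤ θ → (x ≤ c.pr k ∨ (c.pl (k + 1) : ℝ) ≤ x) →
          (fi c x - fi c x * XX c k x) ^ 2 ≤ 10 * (c.len : ℝ) ^ 2 * θ := fun h1 h2 => by
        nlinarith [XX_out h hs hk h2, sq_nonneg (fi c x + fi c x * XX c k x)]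
      rcases le_total x (c.pr k) with h1 | h1
      · refine out ((fi_sq_plat h hk.le ?_ (Or.inr h1)).trans (quarter_le h hk.le)) (Or.inl h1)
        by_cases h0 : k = 0
        · exact Or.inl h0
        · exact Or.inr (by simpa [h0] using hT.1)
      rcases le_total (c.pl (k + 1) : ℝ) x with h2 | h2
      · refine out ((fi_sq_plat (j := k + 1) h hk (Or.inr h2) ?_).trans (quarter_le h hk))
          (Or.inr h2)
        by_cases h0 : k + 1 = c.K
        · exact Or.inl h0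
        · exact Or.inr (le_trans (by simpa [h0] using hT.2) o2)
      rw [XX_zone h2]
      have t1 := tail_right' h hk.le (o1.trans h1)
      have t2 := tail_left' (j := k + 1) h hk (h2.trans o2)
      nlinarith [mul_nonneg (sq_nonneg (fi c x)) (sq_nonneg (1 - Th c k x - Th c (k + 1) x))]
    · rw [Set.indicator_of_notMem hT]
      have h2 : x ≤ c.pr k ∨ (c.pl (k + 1) : ℝ) ≤ x := by
        by_contra h3
        rw [not_or, not_le, not_le] at h3
        refine hT ⟨?_, ?_⟩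
        · split_ifs
          · exact hx.1
          · linarith [h3.1]
        · split_ifs
          · exact hx.2
          · exact h3.2.le
      nlinarith [XX_out h hs hk h2]
  have := norm_setIntegral_le_of_norm_le_const (μ := volume) measure_Icc_lt_top key
  rw [Real.volume_real_Icc_of_le (Nat.cast_nonneg _), sub_zero] at this
  refine (le_abs_self _).trans (le_trans this (le_of_eq ?_))
  ring

end

end Vale.Agent.P370Z.CH
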