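import Vale.Agent.P370Z.CH.Tools

/-!
# P370, block CH: the positive solution `φ` of the chain
-/

namespace Vale.Agent.P370Z.CH

open MeasureTheory Finset ChD

noncomputable section

/-- the positive solution -/
def fi (c : ChD) : ℝ → ℝ := levD 0 c.phi

/-- its inverse square -/
def ps (c : ChD) (x : ℝ) : ℝ := 1 / fi c x ^ 2

/-- left end of corridor `j` -/
def cA (c : ChD) (j : ℕ) : ℤ := if j = 0 then 2 else c.r (j - 1)

/-- right end of corridor `j` -/
def cB (c : ChD) (j : ℕ) : ℤ := if j = c.K then c.pr c.K else c.l j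

variable {c : ChD} {m0 : ℕ} {θ x : ℝ} {j k : ℕ}

/-! ### Order of the end points -/

lemma cA_succ (c : ChD) (k : ℕ) : cA c (k + 1) = c.r k := by simp [cA]

lemma cB_lt (hk : k < c.K) : cB c k = c.l k := if_neg hk.ne

lemma two_le_cA (c : ChD) (j : ℕ) : 2 ≤ cA c j := by
  unfold cA
  split_ifs
  · exact le_rfl
  · have := c.two_le_pl (j - 1)
    have := c.pl_le_pr (j - 1)
    have := c.pr_le_l (j - 1)
    have := c.l_le_r (j - 1)
    omega

lemma cA_le_pl (c : ChD) (j : ℕ) : cA c j ≤ c.pl j := by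
  unfold cA
  split_ifs with h
  · have := c.two_le_pl j
    omega
  · have := c.r_le_pl_of_lt (show j - 1 < j by omega)
    omega

lemma pr_le_cB (c : ChD) (j : ℕ) : (c.pr j : ℤ) ≤ cB c j := by
  unfold cB
  split_ifs with h
  · rw [h]
  · have := c.pr_le_l j
    omega

lemma cB_le_len (hj : j ≤ c.K) : cB c j + 2 ≤ c.len := by
  unfold cB
  split_ifs with h
  · rw [len_eq]; omega
  · have := c.l_le_len (k := j) (by omega)
    omega

lemma cB_le_l (c : ChD) (j : ℕ) : cB c j ≤ c.l j := by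
  unfold cB
  split_ifs with h
  · have := c.pr_le_l j
    rw [← h]; omega
  · exact le_rfl

lemma cA_le_cB (c : ChD) (j : ℕ) : cA c j ≤ cB c j := by
  have := cA_le_pl c j
  have := pr_le_cB c j
  have := c.pl_le_pr j
  omega

lemma cB_lt_cA (h : c.OK m0 θ) {i j : ℕ} (hij : i < j) : cB c i + 8 ≤ cA c j := by
  obtain ⟨k, rfl⟩ : ∃ k, j = k + 1 := ⟨j - 1, by omega⟩
  rw [cA_succ]
  have := cB_le_l c i
  have := h.l_lt_r i
  have := c.r_mono (show i ≤ k by omega)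
  omega

lemma sig_le_cor (h : c.OK m0 θ) (hj : j ≤ c.K) {i : ℤ} (h1 : cA c j - 1 ≤ i)
    (h2 : i ≤ cB c j + 4) : c.sig i ≤ c.s j := by
  refine h.sig_le_corr hj ?_ ?_
  · by_cases h0 : j = 0
    · exact Or.inl h0
    · right
      rw [cA, if_neg h0] at h1
      have := h.l_lt_r (j - 1)
      omega
  · by_cases h0 : j = c.K
    · exact Or.inl h0
    · right
      rw [cB, if_neg h0] at h2
      have := h.l_lt_r j
      omega

/-! ### Pointwise facts -/

lemma phi_pos (c : ChD) (i : ℤ) : (0 : ℝ) < c.phi i := by unfold phi; positivity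

lemma phi_le {i : ℤ} {m : ℕ} (h : m ≤ c.sig i) : (c.phi i : ℝ) ≤ (1 / 2) ^ m :=
  pow_le_pow_of_le_one (by norm_num) (by norm_num) h

lemma le_phi {i : ℤ} {m : ℕ} (h : c.sig i ≤ m) : (1 / 2 : ℝ) ^ m ≤ c.phi i :=
  pow_le_pow_of_le_one (by norm_num) (by norm_num) h

lemma phi_step (h : c.OK m0 θ) (i : ℤ) :
    (c.phi (i + 1) : ℝ) ≤ 2 * c.phi i ∧ (c.phi i : ℝ) ≤ 2 * c.phi (i + 1) := by
  have h1 := abs_le.mp (h.sig_step i)
  have a1 := le_phi (c := c) (i := i) (m := c.sig (i + 1) + 1) (by omega)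
  have a2 := le_phi (c := c) (i := i + 1) (m := c.sig i + 1) (by omega)
  rw [pow_succ] at a1 a2
  unfold phi at *
  constructor <;> linarith

lemma fi_pos (c : ChD) (x : ℝ) : 0 < fi c x := levD_pos (phi_pos c) x

lemma fi_le_one (c : ChD) (x : ℝ) : fi c x ≤ 1 :=
  levD_le (fun i => by simpa using phi_le (c := c) (i := i) (Nat.zero_le _)) x

lemma fi_sq_le_one (c : ChD) (x : ℝ) : fi c x ^ 2 ≤ 1 :=
  pow_le_one₀ (fi_pos c x).le (fi_le_one c x)

lemma fi_cont (c : ChD) : Continuous (fi c) := continuous_levD (by omega) _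

lemma ps_pos (c : ChD) (x : ℝ) : 0 < ps c x := by
  have := fi_pos c x
  unfold ps; positivity

lemma ps_cont (c : ChD) : Continuous (ps c) :=
  continuous_const.div ((fi_cont c).pow 2) fun x => (pow_pos (fi_pos c x) 2).ne'

lemma fi_mul_ps (c : ChD) (x : ℝ) : fi c x ^ 2 * ps c x = 1 := by
  have := fi_pos c x
  unfold ps; field_simp

lemma bd_fi_self (h : c.OK m0 θ) {n k : ℕ} (hn : n + k ≤ 8) :
    Bd k betaB (fi c) (levD n c.phi) :=
  bd_levD_self hn (fun i => (phi_step h i).1) fun i => (phi_step h i).2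

lemma bd_fi (h : c.OK m0 θ) {k : ℕ} (hk : k ≤ 8) : Bd k betaB (fun _ => 1) (fi c) :=
  (bd_fi_self h (n := 0) (by omega)).mono fun x =>
    mul_le_mul_of_nonneg_left (fi_le_one c x) betaB_pos.le

/-- the constant in the bound for the derivatives of `ps` -/
def psC : ℝ := 2 ^ 3 * Bd.invC betaB 3 * Bd.invC betaB 3

lemma psC_pos : 0 < psC := by
  have := Bd.one_le_invC one_le_betaB 3
  unfold psC; positivity

lemma bd_ps (h : c.OK m0 θ) : Bd 3 psC (ps c) (ps c) := by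
  have h1 := Bd.inv one_le_betaB (fi_pos c) (bd_fi_self h (n := 0) (k := 3) (by omega))
  have e : ∀ x, 1 / fi c x * (1 / fi c x) = ps c x := fun x => by unfold ps; ring
  exact ((h1.mul h1).congr e).congrW e

lemma deriv_fi (c : ChD) : deriv (fi c) = levD 1 c.phi := deriv_levD (by omega) _

lemma u0_spec (c : ChD) (x : ℝ) : 2 * c.u0 x * fi c x = deriv (deriv (fi c)) x := by
  have := fi_pos c x
  rw [deriv_fi, deriv_levD (by omega)]
  unfold u0
  change 2 * (levD 2 c.phi x / (2 * fi c x)) * fi c x = _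
  field_simp

lemma u0_cont (c : ChD) : Continuous (c.u0 : ℝ → ℝ) :=
  (continuous_levD (by omega) _).div (continuous_const.mul (fi_cont c))
    fun x => (mul_pos two_pos (fi_pos c x)).ne'

lemma u0_le (h : c.OK m0 θ) (x : ℝ) : |c.u0 x| ≤ betaB := by
  have h1 := (bd_fi_self h (n := 2) (k := 0) (by omega)).le x
  have h2 := fi_pos c x
  have h3 := betaB_pos
  unfold u0
  change |levD 2 c.phi x / (2 * fi c x)| ≤ _
  rw [abs_div, abs_of_pos (mul_pos two_pos h2), div_le_iff₀ (mul_pos two_pos h2)]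
  nlinarith

lemma fi_le {P Q : ℤ} {m : ℕ} (h : ∀ i, P ≤ i → i ≤ Q → m ≤ c.sig i) (h0 : (P : ℝ) ≤ x)
    (h1 : x ≤ Q) : fi c x ≤ (1 / 2) ^ m :=
  levD_le_on (fun i a b => phi_le (h i a b)) h0 h1

lemma le_fi {P Q : ℤ} {m : ℕ} (h : ∀ i, P ≤ i → i ≤ Q → c.sig i ≤ m) (h0 : (P : ℝ) ≤ x)
    (h1 : x ≤ Q) : (1 / 2) ^ m ≤ fi c x :=
  le_levD_on (fun i a b => le_phi (h i a b)) h0 h1

lemma half_sq (m : ℕ) : ((1 / 2 : ℝ) ^ m) ^ 2 = (1 / 4) ^ m := by
  rw [← pow_mul, mul_comm, pow_mul]; norm_num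

lemma fi_sq_le {P Q : ℤ} {m : ℕ} (h : ∀ i, P ≤ i → i ≤ Q → m ≤ c.sig i) (h0 : (P : ℝ) ≤ x)
    (h1 : x ≤ Q) : fi c x ^ 2 ≤ (1 / 4) ^ m := by
  rw [← half_sq]
  exact pow_le_pow_left₀ (fi_pos c x).le (fi_le h h0 h1) 2

lemma le_fi_sq {P Q : ℤ} {m : ℕ} (h : ∀ i, P ≤ i → i ≤ Q → c.sig i ≤ m) (h0 : (P : ℝ) ≤ x)
    (h1 : x ≤ Q) : (1 / 4) ^ m ≤ fi c x ^ 2 := by
  rw [← half_sq]
  exact pow_le_pow_left₀ (by positivity) (le_fi h h0 h1) 2

lemma ps_le {P Q : ℤ} {m : ℕ} (h : ∀ i, P ≤ i → i ≤ Q → c.sig i ≤ m) (h0 : (P : ℝ) ≤ x)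
    (h1 : x ≤ Q) : ps c x ≤ 4 ^ m := by
  have := one_div_le_one_div_of_le (by positivity) (le_fi_sq h h0 h1)
  simpa [ps] using this

lemma le_ps {P Q : ℤ} {m : ℕ} (h : ∀ i, P ≤ i → i ≤ Q → m ≤ c.sig i) (h0 : (P : ℝ) ≤ x)
    (h1 : x ≤ Q) : 4 ^ m ≤ ps c x := by
  have := one_div_le_one_div_of_le (pow_pos (fi_pos c x) 2) (fi_sq_le h h0 h1)
  simpa [ps] using this

lemma ps_le_cor (h : c.OK m0 θ) (hj : j ≤ c.K) (h0 : (cA c j : ℝ) - 1 ≤ x)
    (h1 : x ≤ cB c j + 1) : ps c x ≤ 4 ^ c.s j :=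
  ps_le (P := cA c j - 1) (Q := cB c j + 1) (fun i a b => sig_le_cor h hj a (by omega))
    (by push_cast; exact h0) (by push_cast; exact h1)

lemma le_ps_plat (h : c.OK m0 θ) (hj : j ≤ c.K) (h0 : (c.pl j : ℝ) ≤ x) (h1 : x ≤ c.pr j) :
    4 ^ c.s j ≤ ps c x :=
  le_ps (P := c.pl j) (Q := c.pr j) (fun _ a b => (h.sig_plat hj (Or.inr a) (Or.inr b)).ge)
    (by exact_mod_cast h0) (by exact_mod_cast h1)

/-- on the plateaus (including the ends) the solution is small -/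
lemma fi_sq_plat (h : c.OK m0 θ) (hj : j ≤ c.K) (h0 : j = 0 ∨ (c.pl j : ℝ) ≤ x)
    (h1 : j = c.K ∨ x ≤ c.pr j) : fi c x ^ 2 ≤ (1 / 4) ^ c.s j := by
  refine fi_sq_le (P := ⌊x⌋) (Q := ⌈x⌉) (fun i a b => (h.sig_plat hj ?_ ?_).ge) (Int.floor_le x)
    (Int.le_ceil x)
  · refine h0.imp id fun h0 => le_trans ?_ a
    exact Int.le_floor.mpr (by exact_mod_cast h0)
  · refine h1.imp id fun h1 => le_trans b ?_
    exact Int.ceil_le.mpr (by exact_mod_cast h1)

lemma fi_room (h : c.OK m0 θ) (hk : k < c.K) (h0 : (c.l k : ℝ) ≤ x) (h1 : x ≤ c.r k) :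
    fi c x = (1 / 2) ^ c.ρ k :=
  levD_zero_const_on (A := c.l k) (B := c.r k)
    (fun _ a b => by unfold phi; rw [h.sig_room hk a b])
    (by exact_mod_cast h0) (by exact_mod_cast h1)

lemma dfi_room (h : c.OK m0 θ) (hk : k < c.K) (h0 : (c.l k : ℝ) ≤ x) (h1 : x ≤ c.r k) :
    deriv (fi c) x = 0 := by
  rw [deriv_fi]
  exact levD_const_on le_rfl (by omega) (A := c.l k) (B := c.r k) (a := (1 / 2) ^ c.ρ k)
    (fun _ a b => by unfold phi; rw [h.sig_room hk a b])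
    (by exact_mod_cast h0) (by exact_mod_cast h1)

lemma quarter_le (h : c.OK m0 θ) (hj : j ≤ c.K) : (1 / 4 : ℝ) ^ c.s j ≤ θ := by
  refine le_trans ?_ (h.small j hj 0 h.K_pos)
  exact le_mul_of_one_le_left (by positivity) (one_le_pow₀ (by norm_num))

/-- decreasing on the left half of a corridor -/
lemma fi_anti (h : c.OK m0 θ) (hj : j ≤ c.K) :
    AntitoneOn (fi c) (Set.Icc ((cA c j - 1 : ℤ) : ℝ) ((c.pr j : ℤ) : ℝ)) := by
  refine antitoneOn_levD fun i a b => phi_le ?_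
  rcases Nat.eq_zero_or_pos j with rfl | h0
  · rw [h.sig_plat hj (Or.inl rfl) (Or.inr b), h.sig_plat hj (Or.inl rfl) (Or.inr (by omega))]
  · obtain ⟨k, rfl⟩ : ∃ k, j = k + 1 := ⟨j - 1, by omega⟩
    rw [cA_succ] at a
    have := h.l_lt_r k
    exact h.sig_mono hj (by omega) (Or.inr b)

/-- increasing on the right half of a corridor -/
lemma fi_mono (h : c.OK m0 θ) (hj : j ≤ c.K) :
    MonotoneOn (fi c) (Set.Icc ((c.pl j : ℤ) : ℝ) ((cB c j + 1 : ℤ) : ℝ)) := by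
  refine monotoneOn_levD fun i a b => phi_le ?_
  rcases hj.lt_or_eq with h0 | h0
  · rw [cB_lt h0] at b
    have := h.l_lt_r j
    exact h.sig_anti h0 (Or.inr a) (by omega)
  · rw [h.sig_plat hj (Or.inr a) (Or.inl h0), h.sig_plat hj (Or.inr (by omega)) (Or.inl h0)]

/-! ### Geometric sums -/

lemma int_ps_left (h : c.OK m0 θ) (hj : j ≤ c.K) :
    ∫ x in (cA c j : ℝ)..(c.pl j : ℤ), ps c x ≤ 4 / 3 * 4 ^ c.s j := by
  have := tele (ps_cont c) (fun i => 4 / 3 * 4 ^ c.sig i) (cA_le_pl c j) fun i a b x h0 h1 => by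
    rcases Nat.eq_zero_or_pos j with rfl | hp
    · rw [pl_zero] at b
      have := two_le_cA c 0
      omega
    · obtain ⟨k, rfl⟩ : ∃ k, j = k + 1 := ⟨j - 1, by omega⟩
      rw [cA_succ] at a
      have e1 := h.sig_down hj a (by omega)
      have e2 := h.sig_down (i := i + 1) hj (by omega) b
      have e3 : c.sig (i + 1) = c.sig i + 1 := by omega
      have := ps_le (c := c) (P := i) (Q := i + 1) (m := c.sig i + 1) (fun i' a' b' => by
        rcases (by omega : i' = i ∨ i' = i + 1) with rfl | rfl <;> omega) h0 (by push_cast; exact h1)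
      rw [e3]
      rw [pow_succ] at this ⊢
      linarith
  rw [h.sig_plat hj (Or.inr le_rfl) (Or.inr (by have := c.pl_le_pr j; omega))] at this
  have h2 : (0 : ℝ) ≤ 4 / 3 * 4 ^ c.sig (cA c j) := by positivity
  linarith

lemma int_ps_right (h : c.OK m0 θ) (hj : j ≤ c.K) :
    ∫ x in ((c.pr j : ℤ) : ℝ)..(cB c j), ps c x ≤ 4 / 3 * 4 ^ c.s j := by
  have := tele (ps_cont c) (fun i => -(4 / 3 * 4 ^ c.sig i)) (pr_le_cB c j) fun i a b x h0 h1 => by
    rcases hj.lt_or_eq with hp | hp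
    · rw [cB_lt hp] at b
      have e1 := h.sig_up hp a (by omega)
      have e2 := h.sig_up (i := i + 1) hp (by omega) b
      have e3 : c.sig i = c.sig (i + 1) + 1 := by omega
      have := ps_le (c := c) (P := i) (Q := i + 1) (m := c.sig (i + 1) + 1) (fun i' a' b' => by
        rcases (by omega : i' = i ∨ i' = i + 1) with rfl | rfl <;> omega) h0 (by push_cast; exact h1)
      rw [e3]
      rw [pow_succ] at this ⊢
      linarith
    · rw [cB, if_pos hp, ← hp] at b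
      omega
  rw [h.sig_plat hj (Or.inr (by have := c.pl_le_pr j; omega)) (Or.inr le_rfl)] at this
  have h2 : (0 : ℝ) ≤ 4 / 3 * 4 ^ c.sig (cB c j) := by positivity
  linarith

/-- the resistance of a corridor -/
lemma int_ps_cor (h : c.OK m0 θ) (hj : j ≤ c.K) :
    ∫ x in ((cA c j : ℝ) - 1)..(cB c j + 1), ps c x ≤ (c.R j + 5) * 4 ^ c.s j := by
  have hc := ps_cont c
  have o1 : (cA c j : ℝ) ≤ (c.pl j : ℤ) := by exact_mod_cast cA_le_pl c j
  have o2 : ((c.pr j : ℤ) : ℝ) ≤ cB c j := by exact_mod_cast pr_le_cB c j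
  have o3 : ((c.pr j : ℤ) : ℝ) = (c.pl j : ℤ) + c.R j := by rw [pr_eq]; push_cast; ring
  have o4 : (0 : ℝ) ≤ c.R j := Nat.cast_nonneg _
  rw [split3 hc _ (cA c j) (cB c j), split3 hc (cA c j) (c.pl j : ℤ) (c.pr j : ℤ)]
  have a1 := interval_le (p := (cA c j : ℝ) - 1) (q := cA c j) hc (by linarith)
    fun x hx => ps_le_cor h hj hx.1 (by linarith [hx.2])
  have a2 := interval_le (p := (cB c j : ℝ)) (q := cB c j + 1) hc (by linarith)
    fun x hx => ps_le_cor h hj (by linarith [hx.1]) hx.2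
  have a3 := interval_le (p := ((c.pl j : ℤ) : ℝ)) (q := (c.pr j : ℤ)) hc (by linarith)
    fun x hx => ps_le_cor h hj (by linarith [hx.1]) (by linarith [hx.2])
  have a4 := int_ps_left h hj
  have a5 := int_ps_right h hj
  have a6 : (0 : ℝ) ≤ 4 ^ c.s j := by positivity
  rw [o3] at a3
  rw [o3] at a5 ⊢
  nlinarith

/-- the mass of a zone -/
lemma int_fi_zone (h : c.OK m0 θ) (hk : k < c.K) :
    ∫ x in (c.pr k : ℝ)..(c.pl (k + 1)), fi c x ^ 2 ≤ c.a + 3 := by
  have hc : Continuous fun x => fi c x ^ 2 := (fi_cont c).pow 2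
  have o1 := c.pr_le_l k
  have o2 := c.r_le_pl k
  have o3 := c.l_le_r k
  have a1 := tele hc (fun i => 4 / 3 * (1 / 4) ^ c.sig i) (P := c.pr k) (Q := c.l k) (by omega)
    fun i a b x h0 h1 => by
      have e1 := h.sig_up hk a (by omega)
      have e2 := h.sig_up (i := i + 1) hk (by omega) b
      have e3 : c.sig i = c.sig (i + 1) + 1 := by omega
      have := fi_sq_le (c := c) (P := i) (Q := i + 1) (m := c.sig (i + 1)) (fun i' a' b' => by
        rcases (by omega : i' = i ∨ i' = i + 1) with rfl | rfl <;> omega) h0 (by push_cast; exact h1)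
      rw [e3, pow_succ (1 / 4 : ℝ)]
      linarith
  have a2 := tele hc (fun i => -(4 / 3 * (1 / 4) ^ c.sig i)) (P := c.r k) (Q := c.pl (k + 1))
    (by omega) fun i a b x h0 h1 => by
      have e1 := h.sig_down hk a (by omega)
      have e2 := h.sig_down (i := i + 1) hk (by omega) b
      have e3 : c.sig (i + 1) = c.sig i + 1 := by omega
      have := fi_sq_le (c := c) (P := i) (Q := i + 1) (m := c.sig i) (fun i' a' b' => by
        rcases (by omega : i' = i ∨ i' = i + 1) with rfl | rfl <;> omega) h0 (by push_cast; exact h1)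
      rw [e3, pow_succ (1 / 4 : ℝ)]
      linarith
  have a3 := interval_le (p := (c.l k : ℝ)) (q := c.r k) (δ := (1 / 4) ^ c.ρ k) hc
    (by exact_mod_cast o3) fun x hx => by rw [fi_room h hk hx.1 hx.2, half_sq]
  have e : ((c.r k : ℝ) - c.l k) * (1 / 4) ^ c.ρ k = c.a := by
    rw [r_eq]; push_cast
    rw [add_sub_cancel_left, mul_assoc, ← mul_pow]; norm_num
  rw [e] at a3
  have b1 : ∀ i, (0 : ℝ) ≤ (1 / 4) ^ c.sig i := fun i => by positivity
  have b2 : ∀ i, (1 / 4 : ℝ) ^ c.sig i ≤ 1 := fun i => pow_le_one₀ (by norm_num) (by norm_num)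
  rw [split3 hc _ (c.l k) (c.r k)]
  push_cast at a1 a2
  linarith [b1 (c.pr k), b1 (c.pl (k + 1)), b2 (c.l k), b2 (c.r k)]

end

end Vale.Agent.P370Z.CH
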