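import Vale.Agent.P370Z.CH.Phi

/-!
# P370, block CH: the transition functions `Θ j` through the corridors
-/

namespace Vale.Agent.P370Z.CH

open MeasureTheory Finset ChD

noncomputable section

/-- the `n`-th derivative of the smooth indicator of corridor `j` -/
def ze (c : ChD) (n j : ℕ) : ℝ → ℝ := levD n (ind (cA c j) (cB c j))

/-- the resistance of corridor `j` -/
def rs (c : ChD) (j : ℕ) : ℝ := ∫ x, ze c 0 j x * ps c x

/-- the derivative of the transition function -/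
def dT (c : ChD) (j : ℕ) (x : ℝ) : ℝ := ze c 0 j x * ps c x / rs c j

/-- the transition function -/
def Th (c : ChD) (j : ℕ) (x : ℝ) : ℝ := ∫ y in (0 : ℝ)..x, dT c j y

variable {c : ChD} {m0 : ℕ} {θ x : ℝ} {j k : ℕ}

lemma ze_cont (c : ChD) (j : ℕ) : Continuous (ze c 0 j) := continuous_levD (by omega) _

lemma ze_nonneg (c : ChD) (j : ℕ) (x : ℝ) : 0 ≤ ze c 0 j x := lev_ind_nonneg _ _ x

lemma ze_le_one (c : ChD) (j : ℕ) (x : ℝ) : ze c 0 j x ≤ 1 := lev_ind_le_one _ _ x

lemma ze_left (hx : x ≤ cA c j - 1) : ze c 0 j x = 0 := lev_ind_left (by omega) hx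

lemma ze_right (hx : (cB c j : ℝ) + 1 ≤ x) : ze c 0 j x = 0 := lev_ind_right (by omega) hx

lemma ze_supp (x : ℝ) (hx : x ∉ Set.Icc ((cA c j : ℝ) - 1) (cB c j + 1)) : ze c 0 j x = 0 := by
  rw [Set.mem_Icc, not_and_or, not_le, not_le] at hx
  exact hx.elim (fun h => ze_left h.le) fun h => ze_right h.le

lemma ze_plat (h0 : (c.pl j : ℝ) ≤ x) (h1 : x ≤ c.pr j) : ze c 0 j x = 1 := by
  have o1 : (cA c j : ℝ) ≤ c.pl j := by exact_mod_cast cA_le_pl c j
  have o2 : (c.pr j : ℝ) ≤ cB c j := by exact_mod_cast pr_le_cB c j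
  exact lev_ind_one (o1.trans h0) (h1.trans o2)

lemma cAB_le (c : ChD) (j : ℕ) : (cA c j : ℝ) - 1 ≤ cB c j + 1 := by
  have : (cA c j : ℝ) ≤ cB c j := by exact_mod_cast cA_le_cB c j
  linarith

lemma pr_sub_pl (c : ChD) (j : ℕ) : (c.pr j : ℝ) - c.pl j = c.R j := by
  rw [pr_eq]; push_cast; ring

lemma pl_le_pr' (c : ChD) (j : ℕ) : (c.pl j : ℝ) ≤ c.pr j := by exact_mod_cast c.pl_le_pr j

lemma R_ge (h : c.OK m0 θ) (hj : j ≤ c.K) : (8 : ℝ) ≤ c.R j := by exact_mod_cast h.R_ge8 hj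

lemma zeps_integrable (c : ChD) (j : ℕ) : Integrable fun x => ze c 0 j x * ps c x :=
  integrable_of_icc ((ze_cont c j).mul (ps_cont c)) fun x hx => by rw [ze_supp x hx, zero_mul]

lemma rs_low (h : c.OK m0 θ) (hj : j ≤ c.K) : c.R j * 4 ^ c.s j ≤ rs c j := by
  rw [← pr_sub_pl]
  exact le_integral ((ze_cont c j).mul (ps_cont c)) (zeps_integrable c j)
    (fun x => mul_nonneg (ze_nonneg c j x) (ps_pos c x).le) (pl_le_pr' c j) fun x hx => by
      rw [ze_plat hx.1 hx.2, one_mul]; exact le_ps_plat h hj hx.1 hx.2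

lemma rs_pos (h : c.OK m0 θ) (hj : j ≤ c.K) : 0 < rs c j := by
  have := R_ge h hj
  exact lt_of_lt_of_le (by positivity) (rs_low h hj)

lemma rs_up (h : c.OK m0 θ) (hj : j ≤ c.K) : rs c j ≤ (c.R j + 5) * 4 ^ c.s j := by
  refine le_trans ?_ (int_ps_cor h hj)
  rw [rs, integral_eq_interval (cAB_le c j) fun x hx => by rw [ze_supp x hx, zero_mul]]
  exact intervalIntegral.integral_mono_on (cAB_le c j)
    (((ze_cont c j).mul (ps_cont c)).intervalIntegrable _ _) ((ps_cont c).intervalIntegrable _ _)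
    fun x _ => mul_le_of_le_one_left (ps_pos c x).le (ze_le_one c j x)

lemma inv_rs_le (h : c.OK m0 θ) (hj : j ≤ c.K) : 1 / rs c j ≤ (1 / 4) ^ c.s j := by
  have h1 := R_ge h hj
  have h2 : (4 : ℝ) ^ c.s j ≤ rs c j :=
    le_trans (le_mul_of_one_le_left (by positivity) (by linarith)) (rs_low h hj)
  simpa using one_div_le_one_div_of_le (by positivity) h2

lemma dT_cont (c : ChD) (j : ℕ) : Continuous (dT c j) :=
  ((ze_cont c j).mul (ps_cont c)).div_const _

lemma dT_nonneg (h : c.OK m0 θ) (hj : j ≤ c.K) (x : ℝ) : 0 ≤ dT c j x :=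
  div_nonneg (mul_nonneg (ze_nonneg c j x) (ps_pos c x).le) (rs_pos h hj).le

lemma dT_left (hx : x ≤ cA c j - 1) : dT c j x = 0 := by simp [dT, ze_left hx]

lemma dT_right (hx : (cB c j : ℝ) + 1 ≤ x) : dT c j x = 0 := by simp [dT, ze_right hx]

lemma dT_supp (x : ℝ) (hx : x ∉ Set.Icc ((cA c j : ℝ) - 1) (cB c j + 1)) : dT c j x = 0 := by
  simp [dT, ze_supp x hx]

lemma Th_hasDerivAt (c : ChD) (j : ℕ) (x : ℝ) : HasDerivAt (Th c j) (dT c j x) x :=
  ((dT_cont c j).integral_hasStrictDerivAt 0 x).hasDerivAt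

lemma Th_cont (c : ChD) (j : ℕ) : Continuous (Th c j) :=
  continuous_iff_continuousAt.mpr fun x => (Th_hasDerivAt c j x).continuousAt

lemma one_le_cA (c : ChD) (j : ℕ) : (1 : ℝ) ≤ cA c j - 1 := by
  have : (2 : ℝ) ≤ cA c j := by exact_mod_cast two_le_cA c j
  linarith

lemma Th_left (hx : x ≤ cA c j - 1) : Th c j x = 0 := by
  unfold Th
  rw [intervalIntegral.integral_congr (g := fun _ => 0) fun y hy => dT_left ?_]
  · simp
  · have := one_le_cA c j
    rcases Set.mem_uIcc.mp hy with hy | hy <;> linarith [hy.2]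

lemma Th_right (h : c.OK m0 θ) (hj : j ≤ c.K) (hx : (cB c j : ℝ) + 1 ≤ x) : Th c j x = 1 := by
  have o1 := one_le_cA c j
  have o2 := cAB_le c j
  unfold Th
  rw [← integral_eq_interval (by linarith) fun y hy => dT_supp y fun hy' =>
    hy ⟨by linarith [hy'.1], by linarith [hy'.2]⟩]
  unfold dT
  rw [integral_div]
  exact div_self (rs_pos h hj).ne'

lemma Th_mono (h : c.OK m0 θ) (hj : j ≤ c.K) : Monotone (Th c j) :=
  monotone_of_deriv_nonneg (fun x => (Th_hasDerivAt c j x).differentiableAt) fun x => by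
    rw [(Th_hasDerivAt c j x).deriv]; exact dT_nonneg h hj x

lemma Th_nonneg (h : c.OK m0 θ) (hj : j ≤ c.K) (x : ℝ) : 0 ≤ Th c j x :=
  (Th_left (min_le_right x _)).ge.trans (Th_mono h hj (min_le_left _ _))

lemma Th_le_one (h : c.OK m0 θ) (hj : j ≤ c.K) (x : ℝ) : Th c j x ≤ 1 :=
  (Th_mono h hj (le_max_left _ _)).trans (Th_right h hj (le_max_right x _)).le

lemma Th_sub (c : ChD) (j : ℕ) (x y : ℝ) : Th c j y - Th c j x = ∫ t in x..y, dT c j t :=
  intervalIntegral.integral_interval_sub_left ((dT_cont c j).intervalIntegrable _ _)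
    ((dT_cont c j).intervalIntegrable _ _)

lemma fi_dT_le (h : c.OK m0 θ) (hj : j ≤ c.K) {y : ℝ} (hxy : fi c x ≤ fi c y) :
    fi c x ^ 2 * dT c j y ≤ (1 / 4) ^ c.s j := by
  refine le_trans ?_ (inv_rs_le h hj)
  unfold dT
  rw [← mul_div_assoc]
  refine div_le_div_of_nonneg_right ?_ (rs_pos h hj).le
  have a1 := pow_le_pow_left₀ (fi_pos c x).le hxy 2
  have a2 := fi_mul_ps c y
  have a3 := ps_pos c y
  have a4 : ze c 0 j y * ps c y ≤ ps c y := mul_le_of_le_one_left a3.le (ze_le_one c j y)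
  calc _ ≤ fi c y ^ 2 * ps c y := by
        gcongr
        exact mul_nonneg (ze_nonneg c j y) a3.le
    _ = 1 := a2

lemma cB_le_len' (hj : j ≤ c.K) : (cB c j : ℝ) + 2 ≤ c.len := by exact_mod_cast cB_le_len hj

/-- the tail of `Θ j` on the left -/
lemma tail_left (h : c.OK m0 θ) (hj : j ≤ c.K) (hx : x ≤ c.pr j) :
    fi c x ^ 2 * Th c j x ≤ c.len * (1 / 4) ^ c.s j := by
  rcases le_total x (cA c j - 1) with h0 | h0
  · rw [Th_left h0, mul_zero]; positivity
  have e := Th_sub c j (cA c j - 1) x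
  rw [Th_left le_rfl, sub_zero] at e
  rw [e, ← intervalIntegral.integral_const_mul]
  refine (interval_le (continuous_const.mul (dT_cont c j)) h0 fun y hy =>
    fi_dT_le h hj (fi_anti h hj ?_ ?_ hy.2)).trans ?_
  · push_cast; exact ⟨hy.1, hy.2.trans hx⟩
  · push_cast; exact ⟨h0, hx⟩
  · have o1 := one_le_cA c j
    have o2 : (c.pr j : ℝ) + 2 ≤ c.len := by exact_mod_cast c.pr_le_len hj
    gcongr
    linarith

/-- the tail of `1 - Θ j` on the right -/
lemma tail_right (h : c.OK m0 θ) (hj : j ≤ c.K) (hx : (c.pl j : ℝ) ≤ x) :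
    fi c x ^ 2 * (1 - Th c j x) ≤ c.len * (1 / 4) ^ c.s j := by
  rcases le_total ((cB c j : ℝ) + 1) x with h0 | h0
  · rw [Th_right h hj h0, sub_self, mul_zero]; positivity
  have e := Th_sub c j x (cB c j + 1)
  rw [Th_right h hj le_rfl] at e
  rw [e, ← intervalIntegral.integral_const_mul]
  refine (interval_le (continuous_const.mul (dT_cont c j)) h0 fun y hy =>
    fi_dT_le h hj (fi_mono h hj ?_ ?_ hy.1)).trans ?_
  · push_cast; exact ⟨hx, h0⟩
  · push_cast; exact ⟨hx.trans hy.1, hy.2⟩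
  · have o1 := cB_le_len' hj
    have o2 : (0 : ℝ) ≤ c.pl j := Nat.cast_nonneg _
    gcongr
    linarith

/-! ### Derivatives -/

/-- the constant in the bounds for the derivatives of `Θ j` -/
def thC : ℝ := 2 ^ 3 * (2 * betaB) * psC + 1

lemma one_le_thC : 1 ≤ thC := by
  have := betaB_pos
  have := psC_pos
  unfold thC
  exact le_add_of_nonneg_left (by positivity)

lemma bd_dT (h : c.OK m0 θ) (hj : j ≤ c.K) : Bd 3 thC (fun _ => 1) (dT c j) := by
  have h1 := ((bd_ind (n := 0) (k := 3) (by omega) (cA c j) (cB c j)).mul (bd_ps h)).const_mul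
    (1 / rs c j)
  refine (h1.congr fun x => by unfold dT ze; ring).mono fun x => ?_
  have b1 := betaB_pos
  have b2 := psC_pos
  have b3 := rs_pos h hj
  have b4 : 1 / rs c j * ((Set.Icc ((cA c j : ℝ) - 1) (cB c j + 1)).indicator 1 x * ps c x) ≤ 1 := by
    by_cases hx : x ∈ Set.Icc ((cA c j : ℝ) - 1) (cB c j + 1)
    · rw [Set.indicator_of_mem hx, Pi.one_apply, one_mul]
      calc _ ≤ (1 / 4) ^ c.s j * 4 ^ c.s j :=
            mul_le_mul (inv_rs_le h hj) (ps_le_cor h hj hx.1 hx.2) (ps_pos c x).le (by positivity)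
        _ = 1 := by rw [← mul_pow]; norm_num
    · rw [Set.indicator_of_notMem hx]; simp
  rw [abs_of_pos (one_div_pos.mpr b3)]
  have b5 : 0 < 2 ^ 3 * (2 * betaB) * psC := by positivity
  unfold thC
  nlinarith

lemma bd_Th (h : c.OK m0 θ) (hj : j ≤ c.K) : Bd 4 thC (fun _ => 1) (Th c j) :=
  Bd.of_hasDerivAt (Th_hasDerivAt c j) (fun x => by
    rw [abs_of_nonneg (Th_nonneg h hj x), mul_one]
    exact (Th_le_one h hj x).trans one_le_thC) (bd_dT h hj)

lemma deriv_Th (c : ChD) (j : ℕ) : deriv (Th c j) = dT c j :=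
  funext fun x => (Th_hasDerivAt c j x).deriv

/-- the residual of `φ Θ j` -/
lemma res_Th (c : ChD) (j : ℕ) (x : ℝ) :
    2 * deriv (fi c) x * dT c j x + fi c x * deriv (dT c j) x =
      ze c 1 j x / (rs c j * fi c x) := by
  have h0 := (fi_pos c x).ne'
  have h1 : HasDerivAt (fi c) (deriv (fi c) x) x :=
    (differentiable_levD (by omega) _ x).hasDerivAt
  have h2 : HasDerivAt (ze c 0 j) (ze c 1 j x) x := hasDerivAt_levD (by omega) _ x
  have h3 := (h2.mul ((hasDerivAt_const x (1 : ℝ)).div (h1.pow 2) (pow_ne_zero 2 h0))).div_const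
    (rs c j)
  have h4 := h3.deriv
  change deriv (dT c j) x = _ at h4
  rw [h4]
  unfold dT ps
  simp only [Pi.div_apply, Pi.pow_apply]
  by_cases hr : rs c j = 0
  · simp [hr]
  · field_simp
    ring

lemma abs_res_Th (h : c.OK m0 θ) (hj : j ≤ c.K) (x : ℝ) :
    |ze c 1 j x / (rs c j * fi c x)| ≤ 2 * betaB * θ := by
  have b1 := betaB_pos
  have b2 := h.θ_pos
  have b3 := rs_pos h hj
  have b4 := fi_pos c x
  have key : ∀ m : ℕ, (1 / 2) ^ m ≤ fi c x → (1 / 4 : ℝ) ^ c.s j * 2 ^ m ≤ θ →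
      |ze c 1 j x / (rs c j * fi c x)| ≤ 2 * betaB * θ := by
    intro m h1 h2
    have h3 : 1 / fi c x ≤ 2 ^ m := by simpa using one_div_le_one_div_of_le (by positivity) h1
    rw [abs_div, abs_of_pos (mul_pos b3 b4), div_eq_mul_one_div, ← one_div_mul_one_div]
    refine mul_le_mul (abs_lev_ind_le 1 _ _ x) (le_trans ?_ h2) (by positivity) (by positivity)
    exact mul_le_mul (inv_rs_le h hj) h3 (by positivity) (by positivity)
  have ends : (1 / 2 : ℝ) ^ c.s j ≤ θ → (1 / 4 : ℝ) ^ c.s j * 2 ^ c.s j ≤ θ := fun h1 => by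
    rw [← mul_pow]; norm_num; simpa using h1
  have mid : ∀ k < c.K, (1 / 4 : ℝ) ^ c.s j * 2 ^ c.ρ k ≤ θ := fun k hk => by
    refine le_trans ?_ (h.small j hj k hk)
    rw [mul_comm]
    gcongr
    norm_num
  have zero : ze c 1 j x = 0 → |ze c 1 j x / (rs c j * fi c x)| ≤ 2 * betaB * θ := fun h0 => by
    rw [h0, zero_div, abs_zero]; positivity
  rcases le_total x (cA c j - 1) with h1 | h1
  · exact zero (lev_ind_left (by omega) h1)
  rcases le_total ((cB c j : ℝ) + 1) x with h2 | h2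
  · exact zero (lev_ind_right (by omega) h2)
  have hfi : (1 / 2) ^ c.s j ≤ fi c x :=
    le_fi (P := cA c j - 1) (Q := cB c j + 1) (fun i a b => sig_le_cor h hj a (by omega))
      (by push_cast; exact h1) (by push_cast; exact h2)
  rcases le_total x (cA c j) with h3 | h3
  · rcases Nat.eq_zero_or_pos j with rfl | hp
    · exact key _ hfi (ends h.small0)
    · obtain ⟨k, rfl⟩ : ∃ k, j = k + 1 := ⟨j - 1, by omega⟩
      rw [cA_succ] at h1 h3
      have : (c.l k : ℝ) + 8 ≤ c.r k := by exact_mod_cast h.l_lt_r k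
      push_cast at h1 h3
      exact key _ (fi_room h hj (by linarith) h3).ge (mid k hj)
  rcases le_total x (cB c j) with h4 | h4
  · exact zero (lev_ind_mid le_rfl (by omega) h3 h4)
  rcases hj.lt_or_eq with hp | hp
  · rw [cB_lt hp] at h2 h4
    have : (c.l j : ℝ) + 8 ≤ c.r j := by exact_mod_cast h.l_lt_r j
    push_cast at h2 h4
    exact key _ (fi_room h hp h4 (by linarith)).ge (mid j hp)
  · exact key _ hfi (ends (hp ▸ h.smallK))

/-! ### The conductance -/

/-- the energy of the transition function -/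
def cond (c : ChD) (j : ℕ) : ℝ := ∫ x, fi c x ^ 2 * (dT c j x * dT c j x)

lemma cond_integrand (c : ChD) (j : ℕ) (x : ℝ) :
    fi c x ^ 2 * (dT c j x * dT c j x) = ze c 0 j x * (ze c 0 j x * ps c x) / rs c j ^ 2 := by
  have := fi_mul_ps c x
  unfold dT
  rw [div_mul_div_comm, ← mul_div_assoc, ← sq (rs c j)]
  congr 1
  linear_combination (ze c 0 j x * ze c 0 j x * ps c x) * this

lemma zzp_integrable (c : ChD) (j : ℕ) : Integrable fun x => ze c 0 j x * (ze c 0 j x * ps c x) :=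
  integrable_of_icc ((ze_cont c j).mul ((ze_cont c j).mul (ps_cont c))) fun x hx => by
    rw [ze_supp x hx, zero_mul]

lemma cond_up (h : c.OK m0 θ) (hj : j ≤ c.K) : cond c j ≤ (1 / 4) ^ c.s j / c.R j := by
  have b3 := rs_pos h hj
  have b1 := R_ge h hj
  unfold cond
  simp only [cond_integrand]
  rw [integral_div]
  have h1 : ∫ x, ze c 0 j x * (ze c 0 j x * ps c x) ≤ rs c j :=
    integral_mono (zzp_integrable c j) (zeps_integrable c j) fun x =>
      mul_le_of_le_one_left (mul_nonneg (ze_nonneg c j x) (ps_pos c x).le) (ze_le_one c j x)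
  calc _ ≤ rs c j / rs c j ^ 2 := by gcongr
    _ = 1 / rs c j := by field_simp
    _ ≤ 1 / (c.R j * 4 ^ c.s j) := one_div_le_one_div_of_le (by positivity) (rs_low h hj)
    _ = _ := by rw [one_div_pow]; field_simp

lemma cond_low (h : c.OK m0 θ) (hj : j ≤ c.K) :
    (1 / 4) ^ c.s j * (c.R j / (c.R j + 5) ^ 2) ≤ cond c j := by
  have b3 := rs_pos h hj
  have b1 := R_ge h hj
  unfold cond
  simp only [cond_integrand]
  rw [integral_div]
  have h1 : c.R j * 4 ^ c.s j ≤ ∫ x, ze c 0 j x * (ze c 0 j x * ps c x) := by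
    rw [← pr_sub_pl]
    exact le_integral ((ze_cont c j).mul ((ze_cont c j).mul (ps_cont c))) (zzp_integrable c j)
      (fun x => mul_nonneg (ze_nonneg c j x) (mul_nonneg (ze_nonneg c j x) (ps_pos c x).le))
      (pl_le_pr' c j) fun x hx => by
        rw [ze_plat hx.1 hx.2, one_mul, one_mul]; exact le_ps_plat h hj hx.1 hx.2
  calc _ = (c.R j : ℝ) * 4 ^ c.s j / ((c.R j + 5) * 4 ^ c.s j) ^ 2 := by
        rw [one_div_pow]; field_simp
    _ ≤ c.R j * 4 ^ c.s j / rs c j ^ 2 := by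
        gcongr
        exact rs_up h hj
    _ ≤ _ := by gcongr

lemma cond_nonneg (h : c.OK m0 θ) (hj : j ≤ c.K) : 0 ≤ cond c j :=
  le_trans (by positivity) (cond_low h hj)

end

end Vale.Agent.P370Z.CH
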