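import Vale.Agent.P370Z.SM.Bd
import Vale.Agent.P370Z.CH.Comb

/-!
# P370, block CH: tools (smooth indicators, crude and telescoping bounds for integrals)
-/

namespace Vale.Agent.P370Z.CH

open MeasureTheory Finset

noncomputable section

/-! ### Smooth indicators -/

/-- The indicator of the integers in `[A, B]`. -/
def ind (A B : ℤ) (i : ℤ) : ℝ := if A ≤ i ∧ i ≤ B then 1 else 0

variable {A B : ℤ} {x : ℝ} {n : ℕ}

lemma ind_nonneg (A B i : ℤ) : 0 ≤ ind A B i := by unfold ind; split_ifs <;> norm_num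

lemma ind_le_one (A B i : ℤ) : ind A B i ≤ 1 := by unfold ind; split_ifs <;> norm_num

lemma abs_ind_le (A B i : ℤ) : |ind A B i| ≤ 1 := by
  rw [abs_of_nonneg (ind_nonneg A B i)]; exact ind_le_one A B i

lemma lev_ind_left (hn : n ≤ 8) (hx : x ≤ A - 1) : levD n (ind A B) x = 0 := by
  rw [levD_congr_le (g := ind A B) (g' := fun _ => 0) (B := A - 1) hn
    (fun i hi => if_neg (by omega)) (by push_cast; exact hx), levD_const]
  simp

lemma lev_ind_right (hn : n ≤ 8) (hx : (B : ℝ) + 1 ≤ x) : levD n (ind A B) x = 0 := by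
  rw [levD_congr_ge (g := ind A B) (g' := fun _ => 0) (A := B + 1) hn
    (fun i hi => if_neg (by omega)) (by push_cast; exact hx), levD_const]
  simp

lemma lev_ind_one (h0 : (A : ℝ) ≤ x) (h1 : x ≤ B) : levD 0 (ind A B) x = 1 :=
  levD_zero_const_on (fun _ h2 h3 => if_pos ⟨h2, h3⟩) h0 h1

lemma lev_ind_mid (h1n : 1 ≤ n) (hn : n ≤ 8) (h0 : (A : ℝ) ≤ x) (h1 : x ≤ B) :
    levD n (ind A B) x = 0 :=
  levD_const_on h1n hn (a := 1) (fun _ h2 h3 => if_pos ⟨h2, h3⟩) h0 h1

lemma lev_ind_nonneg (A B : ℤ) (x : ℝ) : 0 ≤ levD 0 (ind A B) x := le_levD (ind_nonneg A B) x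

lemma lev_ind_le_one (A B : ℤ) (x : ℝ) : levD 0 (ind A B) x ≤ 1 := levD_le (ind_le_one A B) x

lemma abs_lev_ind_le (n : ℕ) (A B : ℤ) (x : ℝ) : |levD n (ind A B) x| ≤ 2 * betaB := by
  simpa using abs_levD_le n (abs_ind_le A B) x

lemma bd_ind {k : ℕ} (hn : n + k ≤ 8) (A B : ℤ) :
    Bd k (2 * betaB) ((Set.Icc ((A : ℝ) - 1) (B + 1)).indicator 1) (levD n (ind A B)) := by
  have hb : ∀ n ≤ 8, ∀ x, |levD n (ind A B) x| ≤
      2 * betaB * (Set.Icc ((A : ℝ) - 1) (B + 1)).indicator 1 x := by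
    intro n hn x
    by_cases hx : x ∈ Set.Icc ((A : ℝ) - 1) (B + 1)
    · rw [Set.indicator_of_mem hx, Pi.one_apply, mul_one]
      exact abs_lev_ind_le n A B x
    · rw [Set.indicator_of_notMem hx, mul_zero]
      rw [Set.mem_Icc, not_and_or, not_le, not_le] at hx
      rcases hx with hx | hx
      · rw [lev_ind_left hn hx.le, abs_zero]
      · rw [lev_ind_right hn hx.le, abs_zero]
  induction k generalizing n with
  | zero => exact ⟨continuous_levD (by omega) _, hb n (by omega)⟩
  | succ k ih =>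
    exact Bd.of_hasDerivAt (hasDerivAt_levD (by omega) _) (hb n (by omega)) (ih (by omega))

/-! ### Integrals -/

variable {f : ℝ → ℝ} {p q δ : ℝ}

lemma integrable_of_icc (hf : Continuous f) (hs : ∀ x, x ∉ Set.Icc p q → f x = 0) :
    Integrable f :=
  hf.integrable_of_hasCompactSupport (HasCompactSupport.intro isCompact_Icc hs)

lemma integral_eq_interval (hpq : p ≤ q) (hs : ∀ x, x ∉ Set.Icc p q → f x = 0) :
    ∫ x, f x = ∫ x in p..q, f x := by
  rw [intervalIntegral.integral_of_le hpq, ← integral_Icc_eq_integral_Ioc,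
    setIntegral_eq_integral_of_forall_compl_eq_zero hs]

lemma abs_interval_le (hpq : p ≤ q) (hb : ∀ x ∈ Set.Icc p q, |f x| ≤ δ) :
    |∫ x in p..q, f x| ≤ (q - p) * δ := by
  have := intervalIntegral.norm_integral_le_of_norm_le_const (a := p) (b := q) (C := δ) (f := f)
    fun x hx => by
      rw [Set.uIoc_of_le hpq] at hx
      exact hb x ⟨hx.1.le, hx.2⟩
  rwa [Real.norm_eq_abs, abs_of_nonneg (sub_nonneg.mpr hpq), mul_comm] at this

lemma abs_integral_le (hpq : p ≤ q) (hs : ∀ x, x ∉ Set.Icc p q → f x = 0)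
    (hb : ∀ x ∈ Set.Icc p q, |f x| ≤ δ) : |∫ x, f x| ≤ (q - p) * δ := by
  rw [integral_eq_interval hpq hs]
  exact abs_interval_le hpq hb

lemma interval_le (hf : Continuous f) (hpq : p ≤ q) (hb : ∀ x ∈ Set.Icc p q, f x ≤ δ) :
    ∫ x in p..q, f x ≤ (q - p) * δ := by
  have := intervalIntegral.integral_mono_on (μ := volume) hpq (hf.intervalIntegrable p q)
    (continuous_const.intervalIntegrable p q) hb
  simpa using this

lemma le_interval (hf : Continuous f) (hpq : p ≤ q) (hb : ∀ x ∈ Set.Icc p q, δ ≤ f x) :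
    (q - p) * δ ≤ ∫ x in p..q, f x := by
  have := intervalIntegral.integral_mono_on (μ := volume) hpq
    (continuous_const.intervalIntegrable p q) (hf.intervalIntegrable p q) hb
  simpa using this

/-- lower bound of the integral of a nonnegative function by a part of it -/
lemma le_integral (hf : Continuous f) (hi : Integrable f) (h0 : ∀ x, 0 ≤ f x) (hpq : p ≤ q)
    (hb : ∀ x ∈ Set.Icc p q, δ ≤ f x) : (q - p) * δ ≤ ∫ x, f x := by
  refine (le_interval hf hpq hb).trans ?_
  rw [intervalIntegral.integral_of_le hpq]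
  exact setIntegral_le_integral hi (Filter.Eventually.of_forall h0)

/-- telescoping bound over cells -/
lemma tele (hf : Continuous f) (G : ℤ → ℝ) {P Q : ℤ} (hPQ : P ≤ Q)
    (h : ∀ i : ℤ, P ≤ i → i + 1 ≤ Q → ∀ x : ℝ, (i : ℝ) ≤ x → x ≤ i + 1 → f x ≤ G (i + 1) - G i) :
    ∫ x in (P : ℝ)..Q, f x ≤ G Q - G P := by
  induction Q, hPQ using Int.leInduction with
  | base => simp
  | succ Q hQ ih =>
    have h1 := ih fun i a b => h i a (by omega)
    have h2 : ∫ x in (Q : ℝ)..(Q + 1), f x ≤ (Q + 1 - Q) * (G (Q + 1) - G Q) :=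
      interval_le hf (by linarith) fun x hx => h Q hQ le_rfl x hx.1 hx.2
    push_cast
    rw [← intervalIntegral.integral_add_adjacent_intervals (hf.intervalIntegrable P Q)
      (hf.intervalIntegrable Q (Q + 1))]
    linarith

lemma split3 (hf : Continuous f) (a b c d : ℝ) :
    ∫ x in a..d, f x = (∫ x in a..b, f x) + (∫ x in b..c, f x) + ∫ x in c..d, f x := by
  rw [intervalIntegral.integral_add_adjacent_intervals (hf.intervalIntegrable a b)
    (hf.intervalIntegrable b c), intervalIntegral.integral_add_adjacent_intervals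
    (hf.intervalIntegrable a c) (hf.intervalIntegrable c d)]

/-! ### The residual of a product with the positive solution -/

variable {φ X Y u W W' W'' : ℝ → ℝ} {C C' C'' : ℝ}

lemma res1_mul (hφ : Bd 2 C W φ) (hY : Bd 2 C' W' Y) (hu : ∀ x, 2 * u x * φ x = deriv (deriv φ) x)
    (t x : ℝ) : res1 u (fun x => t * (φ x * Y x)) x =
      -(t / 2) * (2 * deriv φ x * deriv Y x + φ x * deriv (deriv Y) x) := by
  have h1 : deriv (fun x => t * (φ x * Y x)) = fun x => t * (deriv φ x * Y x + φ x * deriv Y x) :=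
    funext fun x => (((hφ.hasDerivAt x).mul (hY.hasDerivAt x)).const_mul t).deriv
  have h2 := ((((hφ.deriv.hasDerivAt x).mul (hY.hasDerivAt x)).add
    ((hφ.hasDerivAt x).mul (hY.deriv.hasDerivAt x))).const_mul t).deriv
  unfold res1
  rw [h1]
  erw [h2]
  rw [← hu x]
  ring

/-- integration by parts: the form of the residual -/
lemma integral_res1 (hφ : Bd 2 C W φ) (hX : Bd 2 C'' W'' X) (hY : Bd 2 C' W' Y)
    (hu : ∀ x, 2 * u x * φ x = deriv (deriv φ) x) (hs : ∀ x, x ∉ Set.Icc p q → X x = 0)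
    (hs' : ∀ x, x ∉ Set.Icc p q → deriv X x = 0) (s t : ℝ) :
    ∫ x, s * (φ x * X x) * res1 u (fun x => t * (φ x * Y x)) x =
      s * t / 2 * ∫ x, φ x ^ 2 * (deriv X x * deriv Y x) := by
  have c0 := hφ.cont
  have c1 := hφ.deriv.cont
  have c2 := hX.cont
  have c3 := hX.deriv.cont
  have c4 := hY.deriv.cont
  have c5 := hY.deriv.deriv.cont
  have key := integral_mul_deriv_eq_deriv_mul_of_integrable (u := X) (u' := deriv X)
    (v := fun x => φ x * φ x * deriv Y x)
    (v' := fun x => (deriv φ x * φ x + φ x * deriv φ x) * deriv Y x + φ x * φ x * deriv (deriv Y) x)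
    (fun x _ => hX.hasDerivAt x)
    (fun x _ => ((hφ.hasDerivAt x).mul (hφ.hasDerivAt x)).mul (hY.deriv.hasDerivAt x))
    (integrable_of_icc (p := p) (q := q) (by fun_prop) fun x hx => by simp [hs x hx])
    (integrable_of_icc (p := p) (q := q) (by fun_prop) fun x hx => by simp [hs' x hx])
    (integrable_of_icc (p := p) (q := q) (by fun_prop) fun x hx => by simp [hs x hx])
  have e1 : ∀ x, s * (φ x * X x) * res1 u (fun x => t * (φ x * Y x)) x = -(s * t / 2) *
      (X x * ((deriv φ x * φ x + φ x * deriv φ x) * deriv Y x +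
        φ x * φ x * deriv (deriv Y) x)) := fun x => by
    rw [res1_mul hφ hY hu]; ring
  simp only [e1]
  rw [integral_const_mul, key, neg_mul_neg]
  congr 1
  exact integral_congr_ae (Filter.Eventually.of_forall fun x => by ring)

end

end Vale.Agent.P370Z.CH
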